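import Vale.Agent.P092.H831.Leg
import Vale.Agent.P092.H171.Zo
import Vale.Agent.P092.H171.Ej

/-!
P092, Team P (helper483), [P-OPPINC] = P-TEXT (8.3): THE PATTERN OF A COMMUTING LEG IS EXACT.

The calculi `β p`, `ν l` of one leg (`H831.Fam`), source quadrangle `I`, target quadrangle `Inc`.
Almost every value of a finite joint calculus has EXACTLY the equalities, incidences,
collinearities and concurrences of the labels.  In particular opposite points have opposite values.
No group, no ergodicity, no invariant state: only nowhere-agreement of collinear points and of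
concurrent lines.
-/

set_option linter.all false

namespace Vale.Agent.P092.H483.Inc

open TopologicalSpace Set MeasureTheory Filter Topology
open Vale.Agent.P092.H466 Vale.Agent.P092.H831
open Vale.Agent.P092.H171 (co co_apply hom_uniq ms_restr ae_restr exists_joint ae_ne ae_inc)
open Vale.Agent.P092.H232 (Nin)
open scoped InnerProductSpace

/-! ### The disjoint union of points and lines -/

/-- The disjoint union with its Borel structure. -/
def SB (X Y : Type*) := X ⊕ Y

section inst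

variable (X Y : Type*) [TopologicalSpace X] [TopologicalSpace Y]

instance : TopologicalSpace (SB X Y) := inferInstanceAs (TopologicalSpace (X ⊕ Y))

instance [CompactSpace X] [CompactSpace Y] : CompactSpace (SB X Y) :=
  inferInstanceAs (CompactSpace (X ⊕ Y))

instance [T2Space X] [T2Space Y] : T2Space (SB X Y) := inferInstanceAs (T2Space (X ⊕ Y))

instance [SecondCountableTopology X] [SecondCountableTopology Y] :
    SecondCountableTopology (SB X Y) := inferInstanceAs (SecondCountableTopology (X ⊕ Y))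

instance : MeasurableSpace (SB X Y) := borel _

instance : BorelSpace (SB X Y) := ⟨rfl⟩

instance [CompactSpace X] [CompactSpace Y] [T2Space X] [T2Space Y] [SecondCountableTopology X]
    [SecondCountableTopology Y] : MetrizableSpace (SB X Y) :=
  metrizableSpace_of_t3_secondCountable _

end inst

section emb

variable {X Y : Type*} [TopologicalSpace X] [TopologicalSpace Y]

/-- points -/
def il : C(X, SB X Y) := ⟨Sum.inl, continuous_inl⟩

/-- lines -/
def ir : C(Y, SB X Y) := ⟨Sum.inr, continuous_inr⟩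

lemma il_inj {x x' : X} (h : (il x : SB X Y) = il x') : x = x' := Sum.inl_injective h

lemma ir_inj {y y' : Y} (h : (ir y : SB X Y) = ir y') : y = y' := Sum.inr_injective h

lemma il_ne_ir (x : X) (y : Y) : (il x : SB X Y) ≠ ir y := Sum.inl_ne_inr

/-- extension by zero -/
noncomputable def exL (f : C(X, ℂ)) : C(SB X Y, ℂ) :=
  ⟨Sum.elim f (fun _ => 0), f.continuous.sumElim continuous_const⟩

/-- extension by zero -/
noncomputable def exR (f : C(Y, ℂ)) : C(SB X Y, ℂ) :=
  ⟨Sum.elim (fun _ => 0) f, continuous_const.sumElim f.continuous⟩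

/-- incidence -/
def IR (Inc : X → Y → Prop) : Set (SB X Y × SB X Y) :=
  {p | ∃ x y, Inc x y ∧ p = (il x, ir y)}

/-- collinear or equal -/
def CR (Inc : X → Y → Prop) : Set (SB X Y × SB X Y) :=
  {p | ∃ x x', (∃ n, Inc x n ∧ Inc x' n) ∧ p = (il x, il x')}

/-- concurrent or equal -/
def DR (Inc : X → Y → Prop) : Set (SB X Y × SB X Y) :=
  {p | ∃ y y', (∃ x, Inc x y ∧ Inc x y') ∧ p = (ir y, ir y')}

variable [CompactSpace X] [CompactSpace Y] [T2Space X] [T2Space Y] {Inc : X → Y → Prop}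

lemma isClosed_IR (h : IsClosed {p : X × Y | Inc p.1 p.2}) : IsClosed (IR Inc) := by
  have e : IR Inc = (fun p : X × Y => ((il p.1 : SB X Y), (ir p.2 : SB X Y))) ''
      {p : X × Y | Inc p.1 p.2} := by
    ext p
    constructor
    · rintro ⟨x, y, h, rfl⟩; exact ⟨(x, y), h, rfl⟩
    · rintro ⟨⟨x, y⟩, h, rfl⟩; exact ⟨x, y, h, rfl⟩
  rw [e]
  exact (h.isCompact.image (by fun_prop)).isClosed

lemma isClosed_CR (h : IsClosed {p : X × Y | Inc p.1 p.2}) : IsClosed (CR Inc) := by
  have e : CR Inc = (fun p : X × X × Y => ((il p.1 : SB X Y), (il p.2.1 : SB X Y))) ''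
      {p : X × X × Y | Inc p.1 p.2.2 ∧ Inc p.2.1 p.2.2} := by
    ext p
    constructor
    · rintro ⟨x, x', ⟨n, h⟩, rfl⟩; exact ⟨(x, x', n), h, rfl⟩
    · rintro ⟨⟨x, x', n⟩, h, rfl⟩; exact ⟨x, x', ⟨n, h⟩, rfl⟩
  rw [e]
  have c1 : IsClosed {p : X × X × Y | Inc p.1 p.2.2} :=
    h.preimage (f := fun p : X × X × Y => (p.1, p.2.2)) (by fun_prop)
  have c2 : IsClosed {p : X × X × Y | Inc p.2.1 p.2.2} :=
    h.preimage (f := fun p : X × X × Y => (p.2.1, p.2.2)) (by fun_prop)
  exact ((c1.inter c2).isCompact.image (by fun_prop)).isClosed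

lemma isClosed_DR (h : IsClosed {p : X × Y | Inc p.1 p.2}) : IsClosed (DR Inc) := by
  have e : DR Inc = (fun p : Y × Y × X => ((ir p.1 : SB X Y), (ir p.2.1 : SB X Y))) ''
      {p : Y × Y × X | Inc p.2.2 p.1 ∧ Inc p.2.2 p.2.1} := by
    ext p
    constructor
    · rintro ⟨x, x', ⟨n, h⟩, rfl⟩; exact ⟨(x, x', n), h, rfl⟩
    · rintro ⟨⟨x, x', n⟩, h, rfl⟩; exact ⟨x, x', ⟨n, h⟩, rfl⟩
  rw [e]
  have c1 : IsClosed {p : Y × Y × X | Inc p.2.2 p.1} :=
    h.preimage (f := fun p : Y × Y × X => (p.2.2, p.1)) (by fun_prop)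
  have c2 : IsClosed {p : Y × Y × X | Inc p.2.2 p.2.1} :=
    h.preimage (f := fun p : Y × Y × X => (p.2.2, p.2.1)) (by fun_prop)
  exact ((c1.inter c2).isCompact.image (by fun_prop)).isClosed

lemma isClosed_rl : IsClosed (range (il : X → SB X Y)) := by
  exact (isCompact_range il.continuous).isClosed

lemma isClosed_rr : IsClosed (range (ir : Y → SB X Y)) := by
  exact (isCompact_range ir.continuous).isClosed

end emb

/-! ### The labels -/

section lab

variable {P L X Y K : Type*} [TopologicalSpace X] [CompactSpace X] [T2Space X]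
  [TopologicalSpace Y] [CompactSpace Y] [T2Space Y]
  [NormedAddCommGroup K] [InnerProductSpace ℂ K] [CompleteSpace K]
  (β : P → C(X, ℂ) →⋆ₐ[ℂ] (K →L[ℂ] K)) (ν : L → C(Y, ℂ) →⋆ₐ[ℂ] (K →L[ℂ] K))

/-- the calculus of a point or a line, on the union -/
noncomputable def lab : P ⊕ L → (C(SB X Y, ℂ) →⋆ₐ[ℂ] (K →L[ℂ] K)) :=
  Sum.elim (fun p => (β p).comp ((il : C(X, SB X Y)).compStarAlgHom' ℂ ℂ))
    (fun l => (ν l).comp ((ir : C(Y, SB X Y)).compStarAlgHom' ℂ ℂ))

lemma lab_inl (p : P) (f : C(SB X Y, ℂ)) : lab β ν (.inl p) f = β p (f.comp il) := rfl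

lemma lab_inr (l : L) (f : C(SB X Y, ℂ)) : lab β ν (.inr l) f = ν l (f.comp ir) := rfl

variable {β ν} {Inc : X → Y → Prop} {I : P → L → Prop}

lemma lab_comm (hs : SQ I) (ht : TQ Inc) (h : Fam Inc I β ν) (s t : P ⊕ L)
    (f g : C(SB X Y, ℂ)) : Commute (lab β ν s f) (lab β ν t g) := by
  rcases s with p | l <;> rcases t with p' | l'
  · exact h.pts hs ht _ _ _ _
  · exact h.mix hs ht _ _ _ _
  · exact (h.mix hs ht _ _ _ _).symm
  · exact h.lns hs ht _ _ _ _

lemma ts_comp {A B : Type*} [TopologicalSpace A] [TopologicalSpace B] (u : C(B, ℂ)) (g : C(A, B))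
    {x : A} (hx : x ∈ tsupport ⇑(u.comp g)) : g x ∈ tsupport ⇑u := by
  have h1 : tsupport ⇑(u.comp g) ⊆ g ⁻¹' tsupport ⇑u := by
    refine closure_minimal (fun y hy => ?_) ((isClosed_tsupport _).preimage g.continuous)
    exact subset_tsupport _ hy
  exact h1 hx

/-- what is known for a family which contains enough labels -/
structure Base (Inc : X → Y → Prop) (I : P → L → Prop) {ι : Type*} (a : ι → P ⊕ L)
    (z : ι → SB X Y) : Prop where
  pt : ∀ i p, a i = .inl p → ∃ x, z i = il x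
  ln : ∀ i l, a i = .inr l → ∃ y, z i = ir y
  fl : ∀ i j p l, a i = .inl p → a j = .inr l → I p l → (z i, z j) ∈ IR Inc
  eq : ∀ i j, a i = a j → z i = z j
  nc : ∀ i j p p' l, a i = .inl p → a j = .inl p' → p ≠ p' → I p l → I p' l → z i ≠ z j
  nd : ∀ i j l l' p, a i = .inr l → a j = .inr l' → l ≠ l' → I p l → I p l' → z i ≠ z j

variable [SecondCountableTopology X] [SecondCountableTopology Y] {ι : Type*} [Finite ι]
  {a : ι → P ⊕ L} {Φ : C(ι → SB X Y, ℂ) →⋆ₐ[ℂ] (K →L[ℂ] K)}

lemma eq_zero_of_ts {A : Type*} [TopologicalSpace A] {u : C(A, ℂ)} (h : ∀ x, x ∉ tsupport ⇑u) :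
    u = 0 := by
  ext x
  by_contra hx
  exact h x (subset_tsupport _ hx)

theorem ae_base (h : Fam Inc I β ν) (ht : TQ Inc)
    (hΦ : ∀ i f, Φ (co i f) = lab β ν (a i) f) (ξ : K) :
    ∀ᵐ z ∂(ms Φ ξ), Base Inc I a z := by
  classical
  have c1 : ∀ᵐ z ∂(ms Φ ξ), ∀ i p, a i = .inl p → ∃ x, z i = il x := by
    rw [ae_all_iff]; intro i
    rcases hi : a i with p | l
    · have := ae_inc (Φ := Φ) (φ := fun i => lab β ν (a i)) hΦ (i := i) (j := i)
        (I := {q | q.1 ∈ range (il : X → SB X Y)}) (isClosed_rl.preimage continuous_fst) (by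
          intro u v huv
          change lab β ν (a i) u * lab β ν (a i) v = 0
          rw [hi, lab_inl, lab_inl]
          by_cases hv : v = 0
          · subst hv
            have : ((0 : C(SB X Y, ℂ)).comp il) = 0 := rfl
            rw [this, map_zero, mul_zero]
          · obtain ⟨y, hy⟩ : ∃ y, y ∈ tsupport ⇑v := by
              by_contra hc
              push Not at hc
              exact hv (eq_zero_of_ts hc)
            have : u.comp il = 0 := eq_zero_of_ts fun x hx =>
              huv _ (ts_comp u il hx) y hy ⟨x, rfl⟩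
            rw [this, map_zero, zero_mul]) ξ
      filter_upwards [this] with z hz p' _
      obtain ⟨x, hx⟩ := hz
      exact ⟨x, hx.symm⟩
    · exact Eventually.of_forall fun z p' h' => by simp at h'
  have c2 : ∀ᵐ z ∂(ms Φ ξ), ∀ i l, a i = .inr l → ∃ y, z i = ir y := by
    rw [ae_all_iff]; intro i
    rcases hi : a i with p | l
    · exact Eventually.of_forall fun z p' h' => by simp at h'
    · have := ae_inc (Φ := Φ) (φ := fun i => lab β ν (a i)) hΦ (i := i) (j := i)
        (I := {q | q.1 ∈ range (ir : Y → SB X Y)}) (isClosed_rr.preimage continuous_fst) (by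
          intro u v huv
          change lab β ν (a i) u * lab β ν (a i) v = 0
          rw [hi, lab_inr, lab_inr]
          by_cases hv : v = 0
          · subst hv
            have : ((0 : C(SB X Y, ℂ)).comp ir) = 0 := rfl
            rw [this, map_zero, mul_zero]
          · obtain ⟨y, hy⟩ : ∃ y, y ∈ tsupport ⇑v := by
              by_contra hc
              push Not at hc
              exact hv (eq_zero_of_ts hc)
            have : u.comp ir = 0 := eq_zero_of_ts fun x hx =>
              huv _ (ts_comp u ir hx) y hy ⟨x, rfl⟩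
            rw [this, map_zero, zero_mul]) ξ
      filter_upwards [this] with z hz p' _
      obtain ⟨x, hx⟩ := hz
      exact ⟨x, hx.symm⟩
  have c3 : ∀ᵐ z ∂(ms Φ ξ), ∀ i j p l, a i = .inl p → a j = .inr l → I p l →
      (z i, z j) ∈ IR Inc := by
    rw [ae_all_iff]; intro i
    rw [ae_all_iff]; intro j
    rcases hi : a i with p | l
    · rcases hj : a j with p' | l
      · exact Eventually.of_forall fun z _ _ _ h' => by simp at h'
      · by_cases hpl : I p l
        · have := ae_inc (Φ := Φ) (φ := fun i => lab β ν (a i)) hΦ (i := i) (j := j)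
            (I := IR Inc) (isClosed_IR ht.closed) (by
              intro u v huv
              change lab β ν (a i) u * lab β ν (a j) v = 0
              rw [hi, hj, lab_inl, lab_inr]
              exact (h.flg p l hpl).inc _ _ fun x hx y hy hxy =>
                huv _ (ts_comp u il hx) _ (ts_comp v ir hy) ⟨x, y, hxy, rfl⟩) ξ
          filter_upwards [this] with z hz _ _ _ _ _
          exact hz
        · refine Eventually.of_forall fun z p' l' h1 h2 h3 => ?_
          rw [Sum.inl.injEq] at h1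
          rw [Sum.inr.injEq] at h2
          subst h1 h2
          exact absurd h3 hpl
    · exact Eventually.of_forall fun z _ _ h' => by simp at h'
  have c4 : ∀ᵐ z ∂(ms Φ ξ), ∀ i j, a i = a j → z i = z j := by
    rw [ae_all_iff]; intro i
    rw [ae_all_iff]; intro j
    by_cases hij : a i = a j
    · have := ae_inc (Φ := Φ) (φ := fun i => lab β ν (a i)) hΦ (i := i) (j := j)
        (I := {q : SB X Y × SB X Y | q.1 = q.2}) (isClosed_eq continuous_fst continuous_snd) (by
          intro u v huv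
          change lab β ν (a i) u * lab β ν (a j) v = 0
          rw [hij, ← map_mul]
          have : u * v = 0 := by
            ext x
            by_contra hx
            have hx' : u x * v x ≠ 0 := hx
            exact huv x (subset_tsupport _ (left_ne_zero_of_mul hx')) x
              (subset_tsupport _ (right_ne_zero_of_mul hx')) rfl
          rw [this, map_zero]) ξ
      filter_upwards [this] with z hz _
      exact hz
    · exact Eventually.of_forall fun z h' => absurd h' hij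
  have c5 : ∀ᵐ z ∂(ms Φ ξ), ∀ i j p p' l, a i = .inl p → a j = .inl p' → p ≠ p' → I p l →
      I p' l → z i ≠ z j := by
    rw [ae_all_iff]; intro i
    rw [ae_all_iff]; intro j
    rcases hi : a i with p | l
    · rcases hj : a j with p' | l
      · by_cases hc : p ≠ p' ∧ ∃ l, I p l ∧ I p' l
        · obtain ⟨hne, l, h1, h2⟩ := hc
          have := ae_ne (Φ := Φ) (φ := fun i => lab β ν (a i)) hΦ (i := i) (j := j) (by
            intro η hη
            refine (h.col p p' l hne h1 h2).agr η fun f => ?_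
            have := hη (exL f)
            rw [hi, hj, lab_inl, lab_inl] at this
            exact this) ξ
          filter_upwards [this] with z hz _ _ _ _ _ _ _ _
          exact hz
        · refine Eventually.of_forall fun z q q' l h1 h2 h3 h4 h5 => ?_
          rw [Sum.inl.injEq] at h1 h2
          subst h1 h2
          exact absurd ⟨h3, l, h4, h5⟩ hc
      · exact Eventually.of_forall fun z _ _ _ _ h' => by simp at h'
    · exact Eventually.of_forall fun z _ _ _ h' => by simp at h'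
  have c6 : ∀ᵐ z ∂(ms Φ ξ), ∀ i j l l' p, a i = .inr l → a j = .inr l' → l ≠ l' → I p l →
      I p l' → z i ≠ z j := by
    rw [ae_all_iff]; intro i
    rw [ae_all_iff]; intro j
    rcases hi : a i with p | l
    · exact Eventually.of_forall fun z _ _ _ h' => by simp at h'
    · rcases hj : a j with p' | l'
      · exact Eventually.of_forall fun z _ _ _ _ h' => by simp at h'
      · by_cases hc : l ≠ l' ∧ ∃ p, I p l ∧ I p l'
        · obtain ⟨hne, p, h1, h2⟩ := hc
          have := ae_ne (Φ := Φ) (φ := fun i => lab β ν (a i)) hΦ (i := i) (j := j) (by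
            intro η hη
            refine (h.cop l l' p hne h1 h2).agr η fun f => ?_
            have := hη (exR f)
            rw [hi, hj, lab_inr, lab_inr] at this
            exact this) ξ
          filter_upwards [this] with z hz _ _ _ _ _ _ _ _
          exact hz
        · refine Eventually.of_forall fun z q q' p h1 h2 h3 h4 h5 => ?_
          rw [Sum.inr.injEq] at h1 h2
          subst h1 h2
          exact absurd ⟨h3, p, h4, h5⟩ hc
  filter_upwards [c1, c2, c3, c4, c5, c6] with z h1 h2 h3 h4 h5 h6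
  exact ⟨h1, h2, h3, h4, h5, h6⟩

/-- enlarge the family by finitely many labels -/
theorem push (hs : SQ I) (ht : TQ Inc) (h : Fam Inc I β ν) {κ : Type*} [Finite κ]
    (hΦ : ∀ i f, Φ (co i f) = lab β ν (a i) f) (e : κ → P ⊕ L) {S : Set (ι → SB X Y)}
    (hS : MeasurableSet S) (ξ : K)
    (hh : ∀ z : ι ⊕ κ → SB X Y, Base Inc I (Sum.elim a e) z → (fun i => z (.inl i)) ∈ S) :
    ∀ᵐ z ∂(ms Φ ξ), z ∈ S := by
  obtain ⟨Ψ, hΨ⟩ := exists_joint (fun x => lab β ν (Sum.elim a e x)) fun i j f g =>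
    lab_comm hs ht h _ _ f g
  let R : C(ι ⊕ κ → SB X Y, ι → SB X Y) := ⟨fun z i => z (.inl i), by fun_prop⟩
  have e1 : Ψ.comp (R.compStarAlgHom' ℂ ℂ) = Φ := by
    refine hom_uniq fun i f => ?_
    rw [hΦ i f]
    exact hΨ (.inl i) f
  rw [← e1, ms_restr]
  refine (ae_map_iff R.continuous.measurable.aemeasurable hS).2 ?_
  filter_upwards [ae_base h ht hΨ ξ] with z hz
  exact hh z hz

/-! ### The plane geometry -/

/-- the core: a path of two lines with the right inequalities does not close -/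
lemma core {X Y : Type*} [TopologicalSpace X] [TopologicalSpace Y] {Inc : X → Y → Prop}
    (ht : TQ Inc) {xa xb xc : X} {m m' : Y} (h1 : Inc xa m') (h2 : Inc xc m')
    (h3 : Inc xc m) (h4 : Inc xb m) (n1 : xa ≠ xc) (n2 : xb ≠ xc) (n3 : m ≠ m') :
    ¬ ∃ n, Inc xa n ∧ Inc xb n := by
  rintro ⟨n, g1, g2⟩
  have hb : Inc xb m' := by
    by_contra hb
    exact n1 (ht.tri xc xa xb m' m n hb h3 h4 g1 g2 h2 h1).symm
  exact n3 (ht.uniq xb xc m m' n2 h4 h3 hb h2)

/-- the core, with labels -/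
lemma Base.opp {κ : Type*} {a : κ → P ⊕ L} {z : κ → SB X Y} (ht : TQ Inc)
    (hb : Base Inc I a z) {i j c m m' : κ} {p p' q : P} {l l' : L} (ai : a i = .inl p)
    (aj : a j = .inl p') (ac : a c = .inl q) (am : a m = .inr l) (am' : a m' = .inr l')
    (h1 : I p l') (h2 : I q l') (h3 : I q l) (h4 : I p' l) (n1 : p ≠ q) (n2 : p' ≠ q)
    (n3 : l ≠ l') : (z i, z j) ∉ CR Inc := by
  rintro ⟨x, x', hx, e⟩
  obtain ⟨e1, e2⟩ := Prod.mk.inj e
  obtain ⟨xc, e3⟩ := hb.pt c q ac
  obtain ⟨ym, e4⟩ := hb.ln m l am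
  obtain ⟨ym', e5⟩ := hb.ln m' l' am'
  have inc : ∀ {i j : κ} {p l} {x : X} {y : Y}, a i = .inl p → a j = .inr l → I p l →
      z i = il x → z j = ir y → Inc x y := by
    intro i j p l x y ai aj hI hi hj
    obtain ⟨x', y', h, e⟩ := hb.fl i j p l ai aj hI
    obtain ⟨e1, e2⟩ := Prod.mk.inj e
    rw [il_inj (hi.symm.trans e1), ir_inj (hj.symm.trans e2)]
    exact h
  refine core ht (inc ai am' h1 e1 e5) (inc ac am' h2 e3 e5) (inc ac am h3 e3 e4)
    (inc aj am h4 e2 e4) ?_ ?_ ?_ hx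
  · intro e'
    exact hb.nc i c p q l' ai ac n1 h1 h2 (by rw [e1, e3, e'])
  · intro e'
    exact hb.nc j c p' q l aj ac n2 h4 h3 (by rw [e2, e3, e'])
  · intro e'
    exact hb.nd m m' l l' q am am' n3 h3 h2 (by rw [e4, e5, e'])

/-- the core, with labels, dual -/
lemma Base.dopp {κ : Type*} {a : κ → P ⊕ L} {z : κ → SB X Y} (ht : TQ Inc)
    (hb : Base Inc I a z) {i j c m m' : κ} {p p' q : L} {l l' : P} (ai : a i = .inr p)
    (aj : a j = .inr p') (ac : a c = .inr q) (am : a m = .inl l) (am' : a m' = .inl l')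
    (h1 : I l' p) (h2 : I l' q) (h3 : I l q) (h4 : I l p') (n1 : p ≠ q) (n2 : p' ≠ q)
    (n3 : l ≠ l') : (z i, z j) ∉ DR Inc := by
  rintro ⟨x, x', hx, e⟩
  obtain ⟨e1, e2⟩ := Prod.mk.inj e
  obtain ⟨xc, e3⟩ := hb.ln c q ac
  obtain ⟨ym, e4⟩ := hb.pt m l am
  obtain ⟨ym', e5⟩ := hb.pt m' l' am'
  have inc : ∀ {i j : κ} {p l} {x : X} {y : Y}, a i = .inl p → a j = .inr l → I p l →
      z i = il x → z j = ir y → Inc x y := by
    intro i j p l x y ai aj hI hi hj
    obtain ⟨x', y', h, e⟩ := hb.fl i j p l ai aj hI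
    obtain ⟨e1, e2⟩ := Prod.mk.inj e
    rw [il_inj (hi.symm.trans e1), ir_inj (hj.symm.trans e2)]
    exact h
  refine core ht.flip (inc am' ai h1 e5 e1) (inc am' ac h2 e5 e3) (inc am ac h3 e4 e3)
    (inc am aj h4 e4 e2) ?_ ?_ ?_ hx
  · intro e'
    exact hb.nd i c p q l' ai ac n1 h1 h2 (by rw [e1, e3, e'])
  · intro e'
    exact hb.nd j c p' q l aj ac n2 h4 h3 (by rw [e2, e3, e'])
  · intro e'
    exact hb.nc m m' l l' q am am' n3 h3 h2 (by rw [e4, e5, e'])

/-- opposite points of the source: the configuration -/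
lemma exists_path (hs : SQ I) {p p' : P} (hop : ∀ l, I p l → ¬ I p' l) :
    ∃ (q : P) (l l' : L), I p l' ∧ I q l' ∧ I q l ∧ I p' l ∧ p ≠ q ∧ p' ≠ q ∧ l ≠ l' := by
  obtain ⟨l, -, -, hl, -⟩ := hs.two p'
  obtain ⟨q, l', h1, h2, h3⟩ := hs.proj p l
  refine ⟨q, l, l', h2, h3, h1, hl, ?_, ?_, ?_⟩
  · rintro rfl; exact hop l h1 hl
  · rintro rfl; exact hop l' h2 h3
  · rintro rfl; exact hop l h2 hl

section pairs

variable (hs : SQ I) (ht : TQ Inc) (h : Fam Inc I β ν) (hΦ : ∀ i f, Φ (co i f) = lab β ν (a i) f)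

include hs ht h hΦ

/-- collinearity of two points is exact -/
theorem ae_col (ξ : K) (i j : ι) (p p' : P) (ai : a i = .inl p) (aj : a j = .inl p') :
    ∀ᵐ z ∂(ms Φ ξ), ((z i, z j) ∈ CR Inc ↔ ∃ l, I p l ∧ I p' l) := by
  have hm : MeasurableSet {z : ι → SB X Y | (z i, z j) ∈ CR Inc} :=
    ((isClosed_CR ht.closed).preimage
      (f := fun z : ι → SB X Y => (z i, z j)) (by fun_prop)).measurableSet
  by_cases hc : ∃ l, I p l ∧ I p' l
  · obtain ⟨l, h1, h2⟩ := hc
    have := push hs ht h hΦ (κ := Unit) (fun _ => .inr l) hm ξ (by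
      intro z hb
      obtain ⟨x, y, g1, e⟩ := hb.fl (.inl i) (.inr ()) p l ai rfl h1
      obtain ⟨x', y', g2, e'⟩ := hb.fl (.inl j) (.inr ()) p' l aj rfl h2
      obtain ⟨e1, e2⟩ := Prod.mk.inj e
      obtain ⟨e1', e2'⟩ := Prod.mk.inj e'
      have : y = y' := ir_inj (e2.symm.trans e2')
      subst this
      exact ⟨x, x', ⟨y, g1, g2⟩, by rw [← e1, ← e1']⟩)
    filter_upwards [this] with z hz
    exact ⟨fun _ => ⟨l, h1, h2⟩, fun _ => hz⟩
  · obtain ⟨q, l, l', g1, g2, g3, g4, n1, n2, n3⟩ :=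
      exists_path hs (p := p) (p' := p') fun l h1 h2 => hc ⟨l, h1, h2⟩
    have := push hs ht h hΦ (κ := Fin 3) ![.inl q, .inr l, .inr l'] hm.compl ξ (by
      intro z hb
      exact hb.opp ht (i := .inl i) (j := .inl j) (c := .inr 0) (m := .inr 1) (m' := .inr 2)
        ai aj rfl rfl rfl g1 g2 g3 g4 n1 n2 n3)
    filter_upwards [this] with z hz
    exact ⟨fun h' => absurd h' hz, fun h' => absurd h' hc⟩

/-- concurrence of two lines is exact -/
theorem ae_cop (ξ : K) (i j : ι) (l l' : L) (ai : a i = .inr l) (aj : a j = .inr l') :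
    ∀ᵐ z ∂(ms Φ ξ), ((z i, z j) ∈ DR Inc ↔ ∃ p, I p l ∧ I p l') := by
  have hm : MeasurableSet {z : ι → SB X Y | (z i, z j) ∈ DR Inc} :=
    ((isClosed_DR ht.closed).preimage
      (f := fun z : ι → SB X Y => (z i, z j)) (by fun_prop)).measurableSet
  by_cases hc : ∃ p, I p l ∧ I p l'
  · obtain ⟨p, h1, h2⟩ := hc
    have := push hs ht h hΦ (κ := Unit) (fun _ => .inl p) hm ξ (by
      intro z hb
      obtain ⟨x, y, g1, e⟩ := hb.fl (.inr ()) (.inl i) p l rfl ai h1
      obtain ⟨x', y', g2, e'⟩ := hb.fl (.inr ()) (.inl j) p l' rfl aj h2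
      obtain ⟨e1, e2⟩ := Prod.mk.inj e
      obtain ⟨e1', e2'⟩ := Prod.mk.inj e'
      have : x = x' := il_inj (e1.symm.trans e1')
      subst this
      exact ⟨y, y', ⟨x, g1, g2⟩, by rw [← e2, ← e2']⟩)
    filter_upwards [this] with z hz
    exact ⟨fun _ => ⟨p, h1, h2⟩, fun _ => hz⟩
  · obtain ⟨q, p, p', g1, g2, g3, g4, n1, n2, n3⟩ :=
      exists_path hs.flip (p := l) (p' := l') fun l h1 h2 => hc ⟨l, h1, h2⟩
    have := push hs ht h hΦ (κ := Fin 3) ![.inr q, .inl p, .inl p'] hm.compl ξ (by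
      intro z hb
      exact hb.dopp ht (i := .inl i) (j := .inl j) (c := .inr 0) (m := .inr 1) (m' := .inr 2)
        ai aj rfl rfl rfl g1 g2 g3 g4 n1 n2 n3)
    filter_upwards [this] with z hz
    exact ⟨fun h' => absurd h' hz, fun h' => absurd h' hc⟩

/-- incidence of a point and a line is exact -/
theorem ae_exact (ξ : K) (i j : ι) (p : P) (l : L) (ai : a i = .inl p) (aj : a j = .inr l) :
    ∀ᵐ z ∂(ms Φ ξ), ((z i, z j) ∈ IR Inc ↔ I p l) := by
  have hm : MeasurableSet {z : ι → SB X Y | (z i, z j) ∈ IR Inc} :=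
    ((isClosed_IR ht.closed).preimage
      (f := fun z : ι → SB X Y => (z i, z j)) (by fun_prop)).measurableSet
  by_cases hc : I p l
  · filter_upwards [ae_base h ht hΦ ξ] with z hb
    exact ⟨fun _ => hc, fun _ => hb.fl i j p l ai aj hc⟩
  · obtain ⟨q, n, g1, g2, g3⟩ := hs.proj p l
    have n1 : p ≠ q := by rintro rfl; exact hc g1
    have n2 : l ≠ n := by rintro rfl; exact hc g2
    have := push hs ht h hΦ (κ := Fin 2) ![.inl q, .inr n] hm.compl ξ (by
      intro z hb
      have bI : ∀ {i j : ι ⊕ Fin 2} {p l} {x : X} {y : Y}, Sum.elim a ![.inl q, .inr n] i = .inl p →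
          Sum.elim a ![.inl q, .inr n] j = .inr l → I p l →
          z i = il x → z j = ir y → Inc x y := by
        intro i j p l x y ai aj hI hi hj
        obtain ⟨x', y', h, e⟩ := hb.fl i j p l ai aj hI
        obtain ⟨e1, e2⟩ := Prod.mk.inj e
        rw [il_inj (hi.symm.trans e1), ir_inj (hj.symm.trans e2)]
        exact h
      rintro ⟨x, y, hxy, e⟩
      obtain ⟨e1, e2⟩ := Prod.mk.inj e
      obtain ⟨xq, e3⟩ := hb.pt (.inr 0) q rfl
      obtain ⟨yn, e4⟩ := hb.ln (.inr 1) n rfl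
      have k1 : Inc xq y := bI (i := .inr 0) (j := .inl j) rfl aj g1 e3 e2
      have k2 : Inc x yn := bI (i := .inl i) (j := .inr 1) ai rfl g2 e1 e4
      have k3 : Inc xq yn := bI (i := .inr 0) (j := .inr 1) rfl rfl g3 e3 e4
      have k4 : x ≠ xq := by
        intro e'
        refine hb.nc (.inl i) (.inr 0) p q n ai rfl n1 g2 g3 ?_
        rw [e3, ← e']
        exact e1
      have k5 : y = yn := ht.uniq x xq y yn k4 hxy k1 k2 k3
      refine hb.nd (.inl j) (.inr 1) l n q aj rfl n2 g1 g3 ?_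
      rw [e4, ← k5]
      exact e2)
    filter_upwards [this] with z hz
    exact ⟨fun h' => absurd h' hz, fun h' => absurd h' hc⟩

end pairs

/-- **the pattern of the values is the pattern of the labels** -/
structure Pat (Inc : X → Y → Prop) (I : P → L → Prop) {ι : Type*} (a : ι → P ⊕ L)
    (z : ι → SB X Y) : Prop where
  pt : ∀ i p, a i = .inl p → ∃ x, z i = il x
  ln : ∀ i l, a i = .inr l → ∃ y, z i = ir y
  eq : ∀ i j, z i = z j ↔ a i = a j
  inc : ∀ i j p l, a i = .inl p → a j = .inr l → ∀ x y, z i = il x → z j = ir y →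
    (Inc x y ↔ I p l)
  col : ∀ i j p p', a i = .inl p → a j = .inl p' → ∀ x x', z i = il x → z j = il x' →
    ((∃ n, Inc x n ∧ Inc x' n) ↔ ∃ l, I p l ∧ I p' l)
  cop : ∀ i j l l', a i = .inr l → a j = .inr l' → ∀ y y', z i = ir y → z j = ir y' →
    ((∃ x, Inc x y ∧ Inc x y') ↔ ∃ p, I p l ∧ I p l')

/-- **[P-OPPINC]** every commuting leg has the exact pattern -/
theorem ae_pat (hs : SQ I) (ht : TQ Inc) (h : Fam Inc I β ν)
    (hΦ : ∀ i f, Φ (co i f) = lab β ν (a i) f) (ξ : K) :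
    ∀ᵐ z ∂(ms Φ ξ), Pat Inc I a z := by
  classical
  have c1 : ∀ᵐ z ∂(ms Φ ξ), ∀ i j p p', a i = .inl p → a j = .inl p' →
      ((z i, z j) ∈ CR Inc ↔ ∃ l, I p l ∧ I p' l) := by
    rw [ae_all_iff]; intro i
    rw [ae_all_iff]; intro j
    rcases hi : a i with p | l
    · rcases hj : a j with p' | l
      · filter_upwards [ae_col hs ht h hΦ ξ i j p p' hi hj] with z hz q q' h1 h2
        rw [Sum.inl.injEq] at h1 h2
        subst h1 h2
        exact hz
      · exact Eventually.of_forall fun z _ _ _ h' => by simp at h'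
    · exact Eventually.of_forall fun z _ _ h' => by simp at h'
  have c2 : ∀ᵐ z ∂(ms Φ ξ), ∀ i j l l', a i = .inr l → a j = .inr l' →
      ((z i, z j) ∈ DR Inc ↔ ∃ p, I p l ∧ I p l') := by
    rw [ae_all_iff]; intro i
    rw [ae_all_iff]; intro j
    rcases hi : a i with p | l
    · exact Eventually.of_forall fun z _ _ h' => by simp at h'
    · rcases hj : a j with p' | l'
      · exact Eventually.of_forall fun z _ _ _ h' => by simp at h'
      · filter_upwards [ae_cop hs ht h hΦ ξ i j l l' hi hj] with z hz q q' h1 h2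
        rw [Sum.inr.injEq] at h1 h2
        subst h1 h2
        exact hz
  have c3 : ∀ᵐ z ∂(ms Φ ξ), ∀ i j p l, a i = .inl p → a j = .inr l →
      ((z i, z j) ∈ IR Inc ↔ I p l) := by
    rw [ae_all_iff]; intro i
    rw [ae_all_iff]; intro j
    rcases hi : a i with p | l
    · rcases hj : a j with p' | l'
      · exact Eventually.of_forall fun z _ _ _ h' => by simp at h'
      · filter_upwards [ae_exact hs ht h hΦ ξ i j p l' hi hj] with z hz q q' h1 h2
        rw [Sum.inl.injEq] at h1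
        rw [Sum.inr.injEq] at h2
        subst h1 h2
        exact hz
    · exact Eventually.of_forall fun z _ _ h' => by simp at h'
  filter_upwards [ae_base h ht hΦ ξ, c1, c2, c3] with z hb h1 h2 h3
  refine ⟨hb.pt, hb.ln, fun i j => ⟨fun e => ?_, hb.eq i j⟩, ?_, ?_, ?_⟩
  · by_contra hne
    rcases hi : a i with p | l
    · rcases hj : a j with p' | l'
      · have hne' : p ≠ p' := fun e' => hne (by rw [hi, hj, e'])
        by_cases hc : ∃ l, I p l ∧ I p' l
        · obtain ⟨l, g1, g2⟩ := hc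
          exact hb.nc i j p p' l hi hj hne' g1 g2 e
        · refine hc ((h1 i j p p' hi hj).1 ?_)
          rw [← e]
          obtain ⟨l, -, -, hl, -⟩ := hs.two p
          exact (h1 i i p p hi hi).2 ⟨l, hl, hl⟩
      · obtain ⟨x, hx⟩ := hb.pt i p hi
        obtain ⟨y, hy⟩ := hb.ln j l' hj
        exact il_ne_ir x y (by rw [← hx, ← hy, e])
    · rcases hj : a j with p' | l'
      · obtain ⟨x, hx⟩ := hb.pt j p' hj
        obtain ⟨y, hy⟩ := hb.ln i l hi
        exact il_ne_ir x y (by rw [← hx, ← hy, e])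
      · have hne' : l ≠ l' := fun e' => hne (by rw [hi, hj, e'])
        by_cases hc : ∃ p, I p l ∧ I p l'
        · obtain ⟨p, g1, g2⟩ := hc
          exact hb.nd i j l l' p hi hj hne' g1 g2 e
        · refine hc ((h2 i j l l' hi hj).1 ?_)
          rw [← e]
          obtain ⟨p, -, -, hp, -⟩ := hs.two' l
          exact (h2 i i l l hi hi).2 ⟨p, hp, hp⟩
  · intro i j p l hi hj x y hx hy
    rw [← h3 i j p l hi hj]
    constructor
    · intro g
      exact ⟨x, y, g, by rw [hx, hy]⟩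
    · rintro ⟨x', y', g, e⟩
      obtain ⟨e1, e2⟩ := Prod.mk.inj e
      rw [il_inj (hx.symm.trans e1), ir_inj (hy.symm.trans e2)]
      exact g
  · intro i j p l hi hj x y hx hy
    rw [← h1 i j p l hi hj]
    constructor
    · intro g
      exact ⟨x, y, g, by rw [hx, hy]⟩
    · rintro ⟨x', y', g, e⟩
      obtain ⟨e1, e2⟩ := Prod.mk.inj e
      rw [il_inj (hx.symm.trans e1), il_inj (hy.symm.trans e2)]
      exact g
  · intro i j p l hi hj x y hx hy
    rw [← h2 i j p l hi hj]
    constructor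
    · intro g
      exact ⟨x, y, g, by rw [hx, hy]⟩
    · rintro ⟨x', y', g, e⟩
      obtain ⟨e1, e2⟩ := Prod.mk.inj e
      rw [ir_inj (hx.symm.trans e1), ir_inj (hy.symm.trans e2)]
      exact g

end lab

/-! ### Consequences in other letters -/

section out

variable {P L X Y K : Type*} [TopologicalSpace X] [CompactSpace X] [T2Space X]
  [SecondCountableTopology X] [MetrizableSpace X] [MeasurableSpace X] [BorelSpace X]
  [TopologicalSpace Y] [CompactSpace Y] [T2Space Y] [SecondCountableTopology Y]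
  [NormedAddCommGroup K] [InnerProductSpace ℂ K] [CompleteSpace K]
  {β : P → C(X, ℂ) →⋆ₐ[ℂ] (K →L[ℂ] K)} {ν : L → C(Y, ℂ) →⋆ₐ[ℂ] (K →L[ℂ] K)}
  {Inc : X → Y → Prop} {I : P → L → Prop}

/-- **points only**: equality and collinearity are exact -/
theorem ae_pts (hs : SQ I) (ht : TQ Inc) (h : Fam Inc I β ν) {ι : Type*} [Finite ι] {a : ι → P}
    {Φ : C(ι → X, ℂ) →⋆ₐ[ℂ] (K →L[ℂ] K)} (hΦ : ∀ i f, Φ (co i f) = β (a i) f) (ξ : K) :
    ∀ᵐ z ∂(ms Φ ξ), ∀ i j, (z i = z j ↔ a i = a j) ∧
      ((∃ n, Inc (z i) n ∧ Inc (z j) n) ↔ ∃ l, I (a i) l ∧ I (a j) l) := by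
  let J : C(ι → X, ι → SB X Y) := ⟨fun z i => il (z i), by fun_prop⟩
  have h1 := ae_restr Φ J ξ (ae_pat (a := fun i => .inl (a i))
    (Φ := Φ.comp (J.compStarAlgHom' ℂ ℂ)) hs ht h (fun i f => hΦ i (f.comp il)) ξ)
  filter_upwards [h1] with z hz i j
  refine ⟨?_, hz.col i j _ _ rfl rfl _ _ rfl rfl⟩
  have := hz.eq i j
  rw [Sum.inl.injEq] at this
  rw [← this]
  exact ⟨fun e => congrArg il e, fun e => il_inj e⟩

/-- **two points**: the hypothesis `inc` of `H416.mt_of_inc` -/
theorem ae_two (hs : SQ I) (ht : TQ Inc) (h : Fam Inc I β ν) (p p' : P)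
    (Φ : C(Fin 2 → X, ℂ) →⋆ₐ[ℂ] (K →L[ℂ] K)) (hΦ : ∀ i f, Φ (co i f) = β (![p, p'] i) f) (ξ : K) :
    ∀ᵐ z ∂(ms Φ ξ), ((∃ n, Inc (z 0) n ∧ Inc (z 1) n) ↔ ∃ l, I p l ∧ I p' l) := by
  filter_upwards [ae_pts hs ht h (a := ![p, p']) hΦ ξ] with z hz
  exact (hz 0 1).2

end out

/-! ### Operator forms -/

section vec

variable {Z K : Type*} [TopologicalSpace Z] [CompactSpace Z] [MetrizableSpace Z]
  [MeasurableSpace Z] [BorelSpace Z] [SecondCountableTopology Z] {ι : Type*} [Finite ι]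
  [NormedAddCommGroup K] [InnerProductSpace ℂ K] [CompleteSpace K]
  {Φ : C(ι → Z, ℂ) →⋆ₐ[ℂ] (K →L[ℂ] K)} {φ : ι → (C(Z, ℂ) →⋆ₐ[ℂ] (K →L[ℂ] K))}

/-- `H171.ae_inc` for one vector -/
theorem ae_inc_vec (hΦ : ∀ i f, Φ (co i f) = φ i f) {i j : ι} {R : Set (Z × Z)} (hI : IsClosed R)
    (ξ : K) (h : ∀ u v : C(Z, ℂ), (∀ x ∈ tsupport ⇑u, ∀ y ∈ tsupport ⇑v, (x, y) ∉ R) →
      φ i u (φ j v ξ) = 0) : ∀ᵐ z ∂(ms Φ ξ), (z i, z j) ∈ R := by
  have hcont : Continuous fun z : ι → Z => (z i, z j) :=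
    (continuous_apply i).prodMk (continuous_apply j)
  have h0 : ms Φ ξ {z : ι → Z | (z i, z j) ∉ R} = 0 := by
    refine measure_null_of_locally_null _ fun z hz => ?_
    have hz' : (z i, z j) ∈ Rᶜ := hz
    obtain ⟨U, V, hU, hV, hzU, hzV, hUV⟩ := isOpen_prod_iff.1 hI.isOpen_compl _ _ hz'
    obtain ⟨u, hu1, hu2, hu3⟩ := exists_bump (X := Z) (isClosed_singleton (x := z i)) hU
      (by simpa using hzU)
    obtain ⟨v, hv1, hv2, hv3⟩ := exists_bump (X := Z) (isClosed_singleton (x := z j)) hV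
      (by simpa using hzV)
    have hsu : tsupport ⇑(toC u) ⊆ tsupport ⇑u :=
      closure_mono fun x hx hx' => hx (by simp [hx'])
    have hsv : tsupport ⇑(toC v) ⊆ tsupport ⇑v :=
      closure_mono fun x hx hx' => hx (by simp [hx'])
    have h1 : Φ (co i (toC u) * co j (toC v)) ξ = 0 := by
      rw [map_mul, hΦ, hΦ]
      refine h _ _ fun x hx y hy hxy => ?_
      exact hUV ⟨hu2 (hsu hx), hv2 (hsv hy)⟩ hxy
    have h2 := integral_ms Φ (co i (toC u) * co j (toC v)) ξ
    rw [h1, inner_zero_right] at h2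
    have h3 : ∫ x, ((u (x i) * v (x j) : ℝ)) ∂(ms Φ ξ) = 0 := by
      have e : ∀ x : ι → Z, (co i (toC u) * co j (toC v)) x = ((u (x i) * v (x j) : ℝ) : ℂ) := by
        intro x
        simp
      simp_rw [e] at h2
      rw [integral_complex_ofReal] at h2
      exact_mod_cast h2
    have hc : Continuous fun x : ι → Z => u (x i) * v (x j) := by fun_prop
    have h4 : (fun x : ι → Z => u (x i) * v (x j)) =ᵐ[ms Φ ξ] 0 := by
      refine (integral_eq_zero_iff_of_nonneg
        (fun x => mul_nonneg (hu3 _).1 (hv3 _).1) ?_).1 h3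
      exact hc.integrable_of_hasCompactSupport (HasCompactSupport.of_compactSpace _)
    refine ⟨{x : ι → Z | 0 < u (x i) * v (x j)}, ?_, ?_⟩
    · refine mem_nhdsWithin_of_mem_nhds (IsOpen.mem_nhds (isOpen_lt continuous_const hc) ?_)
      show 0 < u (z i) * v (z j)
      rw [hu1 _ rfl, hv1 _ rfl]; norm_num
    · refine measure_eq_zero_iff_ae_notMem.2 ?_
      filter_upwards [h4] with x hx hx'
      have : u (x i) * v (x j) = 0 := hx
      have hx'' : 0 < u (x i) * v (x j) := hx'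
      rw [this] at hx''
      exact lt_irrefl _ hx''
  filter_upwards [measure_eq_zero_iff_ae_notMem.1 h0] with z hz
  by_contra hc
  exact hz hc

theorem zero_of_ae (ξ : K) (h : ∀ᵐ z ∂(ms Φ ξ), False) : ξ = 0 := by
  have h5 : ms Φ ξ univ = 0 :=
    measure_eq_zero_iff_ae_notMem.2 (h.mono fun z hz => hz.elim)
  have h6 := ms_univ Φ ξ
  rw [Measure.real, h5] at h6
  simpa using h6.symm

end vec

section ops

variable {P L X Y K : Type*} [TopologicalSpace X] [CompactSpace X] [T2Space X]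
  [SecondCountableTopology X] [TopologicalSpace Y] [CompactSpace Y] [T2Space Y]
  [SecondCountableTopology Y] [NormedAddCommGroup K] [InnerProductSpace ℂ K] [CompleteSpace K]
  {β : P → C(X, ℂ) →⋆ₐ[ℂ] (K →L[ℂ] K)} {ν : L → C(Y, ℂ) →⋆ₐ[ℂ] (K →L[ℂ] K)}
  {Inc : X → Y → Prop} {I : P → L → Prop}

theorem kill (hs : SQ I) (ht : TQ Inc) (h : Fam Inc I β ν) (s t : P ⊕ L)
    {R : Set (SB X Y × SB X Y)} (hR : IsClosed R)
    (hae : ∀ (Φ : C(Fin 2 → SB X Y, ℂ) →⋆ₐ[ℂ] (K →L[ℂ] K)),
      (∀ i f, Φ (co i f) = lab β ν (![s, t] i) f) → ∀ ξ, ∀ᵐ z ∂(ms Φ ξ), (z 0, z 1) ∉ R)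
    (ξ : K) (h0 : ∀ u v : C(SB X Y, ℂ), (∀ x ∈ tsupport ⇑u, ∀ y ∈ tsupport ⇑v, (x, y) ∉ R) →
      lab β ν s u (lab β ν t v ξ) = 0) : ξ = 0 := by
  obtain ⟨Φ, hΦ⟩ := exists_joint (fun i => lab β ν (![s, t] i)) fun i j f g =>
    lab_comm hs ht h _ _ f g
  refine zero_of_ae (Φ := Φ) ξ ?_
  filter_upwards [hae Φ hΦ ξ, ae_inc_vec (φ := fun i => lab β ν (![s, t] i)) hΦ (i := 0) (j := 1)
    hR ξ h0] with z h1 h2
  exact h1 h2

/-- **opposite points have opposite values**, operator form -/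
theorem opp_zero (hs : SQ I) (ht : TQ Inc) (h : Fam Inc I β ν) {p p' : P}
    (hpp : ¬ ∃ l, I p l ∧ I p' l) (ξ : K)
    (h0 : ∀ f g : C(X, ℂ), (∀ x ∈ tsupport ⇑f, ∀ x' ∈ tsupport ⇑g, ¬ ∃ n, Inc x n ∧ Inc x' n) →
      β p f (β p' g ξ) = 0) : ξ = 0 := by
  refine kill hs ht h (.inl p) (.inl p') (isClosed_CR ht.closed) (fun Φ hΦ ξ => ?_) ξ
    fun u v huv => h0 _ _ fun x hx x' hx' hn =>
      huv _ (ts_comp u il hx) _ (ts_comp v il hx') ⟨x, x', hn, rfl⟩
  filter_upwards [ae_col hs ht h hΦ ξ 0 1 p p' rfl rfl] with z hz h1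
  exact hpp (hz.1 h1)

/-- **disjoint lines have disjoint values**, operator form -/
theorem dopp_zero (hs : SQ I) (ht : TQ Inc) (h : Fam Inc I β ν) {l l' : L}
    (hll : ¬ ∃ p, I p l ∧ I p l') (ξ : K)
    (h0 : ∀ f g : C(Y, ℂ), (∀ y ∈ tsupport ⇑f, ∀ y' ∈ tsupport ⇑g, ¬ ∃ x, Inc x y ∧ Inc x y') →
      ν l f (ν l' g ξ) = 0) : ξ = 0 :=
  opp_zero hs.flip ht.flip h.flip hll ξ h0

/-- **incidence is exact**, operator form -/
theorem inc_zero (hs : SQ I) (ht : TQ Inc) (h : Fam Inc I β ν) {p : P} {l : L}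
    (hpl : ¬ I p l) (ξ : K)
    (h0 : ∀ f g, Nin Inc f g → β p f (ν l g ξ) = 0) : ξ = 0 := by
  refine kill hs ht h (.inl p) (.inr l) (isClosed_IR ht.closed) (fun Φ hΦ ξ => ?_) ξ
    fun u v huv => h0 _ _ fun x hx y hy hxy =>
      huv _ (ts_comp u il hx) _ (ts_comp v ir hy) ⟨x, y, hxy, rfl⟩
  filter_upwards [ae_exact hs ht h hΦ ξ 0 1 p l rfl rfl] with z hz h1
  exact hpl (hz.1 h1)

/-- **different points are nowhere equal** (also opposite ones), operator form -/
theorem agr_all (hs : SQ I) (ht : TQ Inc) (h : Fam Inc I β ν) {p p' : P} (hpp : p ≠ p') (ξ : K)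
    (h0 : ∀ f, β p f ξ = β p' f ξ) : ξ = 0 := by
  have hd : IsClosed {q : SB X Y × SB X Y | q.1 = q.2} :=
    isClosed_eq continuous_fst continuous_snd
  refine kill hs ht h (.inl p) (.inl p') hd (fun Φ hΦ ξ => ?_) ξ fun u v huv => ?_
  · filter_upwards [ae_pat hs ht h hΦ ξ] with z hz h1
    have := (hz.eq 0 1).1 h1
    exact hpp (Sum.inl_injective this)
  · rw [lab_inl, lab_inl, ← h0, ← mul_apply_eq_comp, ← map_mul]
    have : u.comp il * v.comp il = (0 : C(X, ℂ)) := by
      ext x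
      by_contra hx
      have hx' : u (il x) * v (il x) ≠ 0 := hx
      exact huv _ (subset_tsupport _ (left_ne_zero_of_mul hx')) _
        (subset_tsupport _ (right_ne_zero_of_mul hx')) rfl
    rw [this, map_zero, ContinuousLinearMap.zero_apply]

/-- **different lines are nowhere equal** -/
theorem agr_all' (hs : SQ I) (ht : TQ Inc) (h : Fam Inc I β ν) {l l' : L} (hll : l ≠ l') (ξ : K)
    (h0 : ∀ f, ν l f ξ = ν l' f ξ) : ξ = 0 :=
  agr_all hs.flip ht.flip h.flip hll ξ h0

end ops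

end Vale.Agent.P092.H483.Inc
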