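import Vale.Agent.P092.SP.Defs
import Vale.Agent.P092.H370.Sp4b
import Vale.Agent.P092.H483.Inc

/-!
P092, Team P (helper483): `[P-OPPINC]` in the letters of SP/Defs. Source and target quadrangle of
`Sp_4(k)`; a leg in which everything commutes has the exact pattern.
-/

set_option linter.all false

namespace Vale.Agent.P092.H483.Inc4

open TopologicalSpace Set MeasureTheory Filter Topology
open Vale.Agent.P092.RC (YY y0)
open Vale.Agent.P092.SP4
open Vale.Agent.P092.H466 Vale.Agent.P092.H831 Vale.Agent.P092.H483.Inc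
open Vale.Agent.P092.H171 (co)
open Vale.Agent.P092.H232 (Nin)
open scoped InnerProductSpace LinearAlgebra.Projectivization

section geo

variable {k : Type} [NontriviallyNormedField k]

/-- the source quadrangle -/
theorem sq4 : SQ (on : YY k 3 → LL k → Prop) where
  uniq p p' l l' h h1 h2 h3 h4 := on_unique h h1 h2 h3 h4
  proj x l := by
    obtain ⟨y, hy, hxy⟩ := exists_foot x l
    by_cases he : x = y
    · subst he
      exact ⟨x, l, hy, hy, hy⟩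
    · obtain ⟨m, h1, h2⟩ := exists_ln he hxy
      exact ⟨y, m, hy, h1, h2⟩
  tri p l q q' m m' h h1 h2 h3 h4 h5 h6 :=
    foot_unique h h1 h4 (prp_of_on h2 h3) (prp_of_on h5 h6)
  two p := exists_two_ln p
  two' l := exists_on_ne' l

theorem prp_iff_on {x y : YY k 3} : prp x y ↔ ∃ l : LL k, on x l ∧ on y l := by
  constructor
  · intro h
    by_cases he : x = y
    · subst he
      obtain ⟨l, -, -, hl, -⟩ := exists_two_ln x
      exact ⟨l, hl, hl⟩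
    · exact exists_ln he h
  · rintro ⟨l, h1, h2⟩
    exact prp_of_on h1 h2

variable [ProperSpace k]

/-- the target quadrangle -/
theorem tq4 : TQ (on : YY k 3 → LL k → Prop) where
  closed := on_closed
  uniq p p' l l' h h1 h2 h3 h4 := on_unique h h1 h2 h3 h4
  tri x x' z n m m' h h1 h2 h3 h4 h5 h6 :=
    foot_unique h h5 h6 (prp_of_on h2 h1) (prp_of_on h4 h3)

end geo

section leg

variable {k : Type} [NontriviallyNormedField k] [ProperSpace k] [MeasurableSpace k]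
  {E Γ K : Type} [Group E] [TopologicalSpace E] [Group Γ] [NormedAddCommGroup K]
  [InnerProductSpace ℂ K] [CompleteSpace K] {μ : Measure k} {w : kˣ} {𝒰 : Ultrafilter ℕ}
  {ι : S4 k →* E} {a : E →* Vale.Agent.P092.RC.PG k 4} {π : E →* (K →L[ℂ] K)}
  {lam : Γ →* (K →L[ℂ] K)} {W : Set (K →L[ℂ] K)} {Ω : K} {m : Set Γ → (K →L[ℂ] K)}
  {q : Γ → S4 k}

/-- straight or flipped legs: `Y₁, Y₂, IT` any target quadrangle -/
theorem fam_of {Y₁ Y₂ : Type} [TopologicalSpace Y₁] [CompactSpace Y₁] [T2Space Y₁]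
    [MulAction (S4 k) Y₁] [ContinuousConstSMul (S4 k) Y₁] [TopologicalSpace Y₂] [CompactSpace Y₂]
    [T2Space Y₂] [MulAction (S4 k) Y₂] [ContinuousConstSMul (S4 k) Y₂] {IT : Y₁ → Y₂ → Prop}
    {NA₁ : ℝ → ℝ → Set Y₁ → Set Γ} {NA₂ : ℝ → ℝ → Set Y₂ → Set Γ}
    {Ec : YY k 3 → (C(Y₁, ℂ) →⋆ₐ[ℂ] (K →L[ℂ] K))} {F : LL k → (C(Y₂, ℂ) →⋆ₐ[ℂ] (K →L[ℂ] K))}
    (h : SP.LegC IT μ w 𝒰 ι a π lam W Ω m q NA₁ NA₂ Ec F) (hc : SP.Com Ec F) :
    Fam IT on Ec F where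
  flg p l hi := ⟨hc.ef p l, (h.pl p l hi).inc⟩
  col p p' l hne h1 h2 := ⟨hc.ee p p', h.e.agr p p' hne⟩
  cop l l' p hne h1 h2 := ⟨hc.ff l l', h.f.agr l l' hne⟩

variable {Ec : YY k 3 → (C(YY k 3, ℂ) →⋆ₐ[ℂ] (K →L[ℂ] K))}
  {F : LL k → (C(LL k, ℂ) →⋆ₐ[ℂ] (K →L[ℂ] K))}

theorem fam4 (h : SP.LegComm μ w 𝒰 ι a π lam W Ω m q Ec F) : Fam on on Ec F :=
  fam_of h.leg h.com

/-- perpendicular points: the product vanishes off the perpendicular relation -/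
theorem perp_supp (h : SP.LegComm μ w 𝒰 ι a π lam W Ω m q Ec F) {x y : YY k 3}
    (hxy : prp x y) (f g : C(YY k 3, ℂ))
    (hfg : ∀ u ∈ tsupport ⇑f, ∀ v ∈ tsupport ⇑g, ¬ prp u v) : Ec x f * Ec y g = 0 := by
  obtain ⟨l, h1, h2⟩ := prp_iff_on.1 hxy
  exact perp_of_line tq4.closed ((fam4 h).flg x l h1) ((fam4 h).flg y l h2) f g
    fun u hu v hv hn => hfg u hu v hv (prp_iff_on.2 hn)

/-- opposite points: almost surely the values are opposite (kernel form) -/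
theorem opp_ker (h : SP.LegComm μ w 𝒰 ι a π lam W Ω m q Ec F) {x y : YY k 3}
    (hxy : ¬ prp x y) (ζ : K)
    (h0 : ∀ f g : C(YY k 3, ℂ), (∀ u ∈ tsupport ⇑f, ∀ v ∈ tsupport ⇑g, ¬ prp u v) →
      Ec x f (Ec y g ζ) = 0) : ζ = 0 :=
  opp_zero sq4 tq4 (fam4 h) (fun hn => hxy (prp_iff_on.2 hn)) ζ fun f g hfg =>
    h0 f g fun u hu v hv huv => hfg u hu v hv (prp_iff_on.1 huv)

/-- **the hypothesis `inc` of the classical leg** -/
theorem inc4 [MeasurableSpace (YY k 3)] [BorelSpace (YY k 3)]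
    (h : SP.LegComm μ w 𝒰 ι a π lam W Ω m q Ec F) (x y : YY k 3)
    (Φ : C(Fin 2 → YY k 3, ℂ) →⋆ₐ[ℂ] (K →L[ℂ] K)) (hΦ : ∀ i f, Φ (co i f) = Ec (![x, y] i) f)
    (ξ : K) : ∀ᵐ z ∂(ms Φ ξ), (prp (z 0) (z 1) ↔ prp x y) := by
  filter_upwards [ae_two sq4 tq4 (fam4 h) x y Φ hΦ ξ] with z hz
  rw [prp_iff_on, prp_iff_on]
  exact hz

end leg

end Vale.Agent.P092.H483.Inc4
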