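import Vale.Agent.P092.H483.Push

/-!
P092, TEAM C, block [C-LINE] (helper483). The family of a source line: abstract form.
From a family `Q` over the compact open subsets of `Z = Y × G₀` and the vanishing of the products
`π g * Q C' * π g⁻¹ * Q C` off the diagonal of directions we get the projection valued measure `F`
of the line, its incidence with the boundary maps at the points of the line and its independence
of the point.
-/

set_option linter.all false

open scoped InnerProductSpace ENNReal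
open Filter Topology ContinuousLinearMap TopologicalSpace

namespace Vale.Agent.P092.H483

open Vale.Agent.P092.SR (CO)
open Vale.Agent.P092.H820 (Cpv)
open Vale.Agent.P092.RC

/-- two families, one vanishing: `Q' C' * Q C = 0` as soon as `R z z'` fails on `C × C'` -/
def Van {Z Z' K : Type} [TopologicalSpace Z] [TopologicalSpace Z'] [NormedAddCommGroup K]
    [InnerProductSpace ℂ K] [CompleteSpace K] (Q : Set Z → (K →L[ℂ] K))
    (Q' : Set Z' → (K →L[ℂ] K)) (R : Z → Z' → Prop) : Prop :=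
  ∀ C C', CO C → CO C' → (∀ z ∈ C, ∀ z' ∈ C', R z z') → Q' C' * Q C = 0

section two

variable {Z Z' Y L K : Type} [TopologicalSpace Z] [TopologicalSpace Z'] [TopologicalSpace Y]
  [TopologicalSpace L] [NormedAddCommGroup K] [InnerProductSpace ℂ K] [CompleteSpace K]
  [T2Space Z] [T2Space Z'] {Q : Set Z → (K →L[ℂ] K)} {Q' : Set Z' → (K →L[ℂ] K)}
  {R : Z → Z' → Prop}

/-- products of push forwards -/
theorem van_pf {L' : Type} [TopologicalSpace L'] (h : QF Q) (h' : QF Q') (hv : Van Q Q' R)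
    {s : Z → L} (hs : Continuous s) {s' : Z' → L'} (hs' : Continuous s') {B : Clopens L}
    {B' : Clopens L'} (hR : ∀ z z', s z ∈ B → s' z' ∈ B' → R z z') :
    pf Q' s' B' * pf Q s B = 0 := by
  refine h.ext fun C hC => ?_
  rw [zero_mul]
  refine h'.ext' fun C' hC' => ?_
  rw [mul_zero, mul_assoc, pf_mul h hs _ hC, ← mul_assoc, mul_pf h' hs' _ hC']
  exact hv _ _ (co_pre hC hs B) (co_pre hC' hs' B') fun z hz z' hz' => hR z z' hz.2 hz'.2

/-- The data of two points `f : Z → Y`, `f' : Z' → Y` and two lines `s : Z → L`, `s' : Z' → L`: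
if the product of the families vanishes unless the lines coincide (or the points are equal), then
the line families agree on the range of `P A * P' A'`, `A`, `A'` disjoint. -/
structure Pair (f : Z → Y) (f' : Z' → Y) (s : Z → L) (s' : Z' → L) (I : Set (Y × L)) : Prop where
  cf : Continuous f
  cf' : Continuous f'
  cs : Continuous s
  cs' : Continuous s'
  closed : IsClosed I
  mem : ∀ z, (f z, s z) ∈ I
  mem' : ∀ z, (f' z, s' z) ∈ I
  uniq : ∀ (y y' : Y) l l', y ≠ y' → (y, l) ∈ I → (y', l) ∈ I → (y, l') ∈ I → (y', l') ∈ I → l = l'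

variable {f : Z → Y} {f' : Z' → Y} {s : Z → L} {s' : Z' → L} {I : Set (Y × L)}

theorem inc_zero (h : QF Q) (h' : QF Q') (hp : Pair f f' s s' I)
    (hv : Van Q Q' fun z z' => f z ≠ f' z' ∧ ((f' z', s z) ∉ I ∨ (f z, s' z') ∉ I))
    (A : Clopens Y) (B : Clopens L) (hAB : ∀ a ∈ A, ∀ b ∈ B, (a, b) ∉ I) :
    pf Q' f' A * pf Q s B = 0 := by
  refine van_pf h h' hv hp.cs hp.cf' fun z z' hz hz' => ?_
  have h1 := hAB _ hz' _ hz
  exact ⟨fun e => h1 (e ▸ hp.mem z), Or.inl h1⟩

theorem inc_zero' (h : QF Q) (h' : QF Q') (hp : Pair f f' s s' I)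
    (hv : Van Q Q' fun z z' => f z ≠ f' z' ∧ ((f' z', s z) ∉ I ∨ (f z, s' z') ∉ I))
    (A : Clopens Y) (B : Clopens L) (hAB : ∀ a ∈ A, ∀ b ∈ B, (a, b) ∉ I) :
    pf Q f A * pf Q' s' B = 0 := by
  have e : pf Q' s' B * pf Q f A = 0 := by
    refine van_pf h h' hv hp.cf hp.cs' fun z z' hz hz' => ?_
    have h1 := hAB _ hz _ hz'
    exact ⟨fun e => h1 (e ▸ hp.mem' z'), Or.inr h1⟩
  have e2 := congrArg star e
  rwa [star_mul, pf_sa, pf_sa, star_zero] at e2

/-- push forwards of the same family commute -/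
theorem pf_pf (h : QF Q) {L' : Type} [TopologicalSpace L'] {t : Z → L'} (ht : Continuous t)
    (hs : Continuous s) (B : Clopens L) (B' : Clopens L') :
    pf Q s B * pf Q t B' = pf Q t B' * pf Q s B := by
  refine (pf_comm h hs (fun C hC => ?_) B).symm
  rw [pf_mul h ht _ hC, mul_pf h ht _ hC]

variable [CompactSpace Y] [T2Space Y] [TotallyDisconnectedSpace Y] [CompactSpace L] [T2Space L]
  [TotallyDisconnectedSpace L]

theorem comm_F (h : QF Q) (h' : QF Q') (hp : Pair f f' s s' I)
    (hv : Van Q Q' fun z z' => f z ≠ f' z' ∧ ((f' z', s z) ∉ I ∨ (f z, s' z') ∉ I))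
    (A : Clopens Y) (B : Clopens L) : pf Q' f' A * pf Q s B = pf Q s B * pf Q' f' A :=
  H820.inc_comm hp.closed (fun a a' c c' hne h1 h2 h3 h4 => hp.uniq a a' c c' hne h1 h2 h3 h4)
    (pf_cpv h' hp.cf') (pf_cpv h hp.cs) (inc_zero h h' hp hv) A B

theorem comm_F' (h : QF Q) (h' : QF Q') (hp : Pair f f' s s' I)
    (hv : Van Q Q' fun z z' => f z ≠ f' z' ∧ ((f' z', s z) ∉ I ∨ (f z, s' z') ∉ I))
    (A : Clopens Y) (B : Clopens L) : pf Q f A * pf Q' s' B = pf Q' s' B * pf Q f A :=
  H820.inc_comm hp.closed (fun a a' c c' hne h1 h2 h3 h4 => hp.uniq a a' c c' hne h1 h2 h3 h4)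
    (pf_cpv h hp.cf) (pf_cpv h' hp.cs') (inc_zero' h h' hp hv) A B

/-- the range of the difference is in the agreement space -/
theorem agree (h : QF Q) (h' : QF Q') (hp : Pair f f' s s' I)
    (hv : Van Q Q' fun z z' => f z ≠ f' z' ∧ ((f' z', s z) ∉ I ∨ (f z, s' z') ∉ I))
    (A : Clopens Y) (B : Clopens L) :
    pf Q f A * (pf Q s B - pf Q' s' B) = pf Q' f' A * (pf Q s B - pf Q' s' B) := by
  have hP := pf_cpv h hp.cf
  have hP' := pf_cpv h' hp.cf'
  have hF := pf_cpv h hp.cs
  have hF' := pf_cpv h' hp.cs'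
  -- the vanishing across disjoint sets
  have key : ∀ (A A' : Clopens Y) (B B' : Clopens L), Disjoint A A' → Disjoint B B' →
      pf Q f A * pf Q' f' A' * (pf Q s B * pf Q' s' B') = 0 := by
    intro A A' B B' hA hB
    have e1 : pf Q' s' B' * pf Q' f' A' * (pf Q f A * pf Q s B) = 0 := by
      refine h.ext fun C hC => ?_
      rw [zero_mul]
      refine h'.ext' fun C' hC' => ?_
      rw [mul_zero]
      have a1 : Q' C' * (pf Q' s' B' * pf Q' f' A' * (pf Q f A * pf Q s B) * Q C) =
          Q' (C' ∩ s' ⁻¹' (B' : Set L) ∩ f' ⁻¹' (A' : Set Y)) *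
            Q (C ∩ s ⁻¹' (B : Set L) ∩ f ⁻¹' (A : Set Y)) := by
        rw [← pf_mul h hp.cf A (co_pre hC hp.cs B), ← pf_mul h hp.cs B hC,
          ← mul_pf h' hp.cf' A' (co_pre hC' hp.cs' B'), ← mul_pf h' hp.cs' B' hC']
        simp only [mul_assoc]
      rw [a1]
      refine hv _ _ (co_pre (co_pre hC hp.cs B) hp.cf A)
        (co_pre (co_pre hC' hp.cs' B') hp.cf' A') fun z hz z' hz' => ?_
      have hne : f z ≠ f' z' := by
        intro e
        have a2 : f z ∈ A := hz.2
        have a3 : f' z' ∈ A' := hz'.2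
        have a4 : f z ∈ A ⊓ A' := ⟨a2, by rw [e]; exact a3⟩
        rw [hA.eq_bot] at a4
        exact a4
      refine ⟨hne, ?_⟩
      by_contra hcon
      rw [not_or, not_not, not_not] at hcon
      have e := hp.uniq (f z) (f' z') (s z) (s' z') hne (hp.mem z) hcon.1 hcon.2 (hp.mem' z')
      have a2 : s z ∈ B := hz.1.2
      have a3 : s' z' ∈ B' := hz'.1.2
      have a4 : s z ∈ B ⊓ B' := ⟨a2, by rw [e]; exact a3⟩
      rw [hB.eq_bot] at a4
      exact a4
    have e2 := congrArg star e1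
    rw [star_mul, star_mul, star_mul, pf_sa, pf_sa, pf_sa, pf_sa, star_zero] at e2
    -- `F P P' F' = 0`, move `F` to the right
    calc pf Q f A * pf Q' f' A' * (pf Q s B * pf Q' s' B')
        = pf Q f A * (pf Q' f' A' * pf Q s B) * pf Q' s' B' := by simp only [mul_assoc]
      _ = (pf Q f A * pf Q s B) * pf Q' f' A' * pf Q' s' B' := by
          rw [comm_F h h' hp hv]; simp only [mul_assoc]
      _ = (pf Q s B * pf Q f A) * pf Q' f' A' * pf Q' s' B' := by rw [pf_pf h hp.cs hp.cf]
      _ = pf Q s B * pf Q f A * (pf Q' f' A' * pf Q' s' B') := by simp only [mul_assoc]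
      _ = 0 := e2
  have key2 : ∀ A A' : Clopens Y, Disjoint A A' →
      pf Q f A * pf Q' f' A' * (pf Q s B - pf Q' s' B) = 0 := by
    intro A A' hA
    have a1 := key A A' B Bᶜ hA disjoint_compl_right
    have a2 := key A A' Bᶜ B hA disjoint_compl_left
    rw [hF'.compl, mul_sub, mul_one, mul_sub, sub_eq_zero] at a1
    rw [hF.compl, sub_mul, one_mul, mul_sub, sub_eq_zero] at a2
    rw [mul_sub, a1, a2, sub_self]
  have b1 := key2 A Aᶜ disjoint_compl_right
  have b2 := key2 Aᶜ A disjoint_compl_left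
  generalize pf Q s B - pf Q' s' B = T at b1 b2 ⊢
  rw [hP'.compl, mul_sub, mul_one, sub_mul, sub_eq_zero] at b1
  rw [hP.compl, sub_mul, sub_mul, one_mul, sub_eq_zero] at b2
  rw [b1, b2]

end two

end Vale.Agent.P092.H483
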