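import Vale.Agent.P092.H483.LineB
import Vale.Agent.P092.H791.LGeo2
import Vale.Agent.P092.H933.HM1
import Vale.Agent.P092.H76.NoInvP

/-!
P092, TEAM C, block [C-LINE] (helper483), concrete part: the Moore property, maximality of the
stabiliser of a point and the absence of invariant means for the projective plane; the reduction of
`RC.LineStmt` to the vanishing statement.
-/

set_option linter.all false

open scoped InnerProductSpace ENNReal LinearAlgebra.Projectivization Pointwise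
open Filter Topology ContinuousLinearMap TopologicalSpace Matrix Projectivization

namespace Vale.Agent.P092.H483

open Vale.Agent.P092.SR (CO)
open Vale.Agent.P092.RC

section con

variable {k : Type} [NontriviallyNormedField k]

/-- no invariant finitely additive probability -/
theorem ni_of [ProperSpace k] [IsUltrametricDist k] {Γ : Type} [Group Γ] {q : Γ →* GG k 2}
    (hq : Emb q) (φ : Clopens (YY k 2) → ℝ) (h0 : ∀ U, 0 ≤ φ U)
    (hadd : ∀ U V, Disjoint U V → φ (U ⊔ V) = φ U + φ V) (h1 : φ ⊤ = 1)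
    (hinv : ∀ γ U, φ (sm (q γ) U) = φ U) : False := by
  refine H76.NI.no_inv_clopens (k := k) (ι := Fin (2 + 1)) (i := 0) (j := 1) (by decide) q.range
    hq.lat.covol φ h0 hadd h1 ?_
  rintro _ ⟨γ, rfl⟩ U V hV
  have e : V = sm (q γ) U := by
    apply SetLike.coe_injective
    rw [hV]
    show q γ • (U : Set (YY k 2)) = (fun y => (q γ)⁻¹ • y) ⁻¹' (U : Set (YY k 2))
    rw [Set.preimage_smul_inv]
  rw [e]
  exact hinv γ U

/-- vectors fixed by one root group -/
theorem fix_root {n : Type} [Fintype n] [DecidableEq n] {i j : n} (hij : i ≠ j) {H : Type}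
    [NormedAddCommGroup H] [InnerProductSpace ℂ H] (u : SpecialLinearGroup n k →* (H →L[ℂ] H))
    (hiso : ∀ g ξ, ‖u g ξ‖ = ‖ξ‖) (hcont : ∀ ξ, Continuous fun g => u g ξ) {ξ : H}
    (h : ∀ t : k, u (SpecialLinearGroup.transvection hij t) ξ = ξ) (g : SpecialLinearGroup n k) :
    u g ξ = ξ := by
  have hL : H933.Len (fun g => dist (u g ξ) ξ) := by
    refine H933.Len.ofAction (fun g x => u g x) (fun g h x => by rw [map_mul]; rfl) ξ
      (by rw [map_one]; rfl) (fun g x y => ?_) ?_
    · rw [dist_eq_norm, dist_eq_norm, ← map_sub, hiso]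
    · have := (hcont ξ).tendsto 1
      rwa [map_one] at this
  have hk := hL.eq_top hij (fun s => by
    rw [H933.Len.mem_ker, h s, dist_self])
  have : g ∈ hL.ker := by rw [hk]; trivial
  rw [H933.Len.mem_ker] at this
  exact dist_eq_zero.1 this

/-- a set containing a conjugate of a root group has the Moore property -/
theorem moore_conj {n : Type} [Fintype n] [DecidableEq n] {i j : n} (hij : i ≠ j)
    {S : Set (SpecialLinearGroup n k)} (h : SpecialLinearGroup n k)
    (hS : ∀ t : k, h * SpecialLinearGroup.transvection hij t * h⁻¹ ∈ S) : Moore S := by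
  intro H _ _ _ u hiso hcont ξ hξ g
  have h1 : ∀ g, u g (u h⁻¹ ξ) = u h⁻¹ ξ := by
    refine fix_root hij u hiso hcont fun t => ?_
    have e := hξ _ (hS t)
    rw [map_mul, map_mul] at e
    have e2 := congrArg (u h⁻¹) e
    have e3 : u h⁻¹ ((u h * u (SpecialLinearGroup.transvection hij t) * u h⁻¹) ξ) =
        (u h⁻¹ * u h) (u (SpecialLinearGroup.transvection hij t) (u h⁻¹ ξ)) := rfl
    rw [e3, ← map_mul, inv_mul_cancel, map_one] at e2
    exact e2
  have h2 : u h⁻¹ ξ = ξ := by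
    have e := h1 h
    have e2 : u h (u h⁻¹ ξ) = (u h * u h⁻¹) ξ := rfl
    rw [e2, ← map_mul, mul_inv_cancel, map_one] at e
    exact e.symm
  have := h1 g
  rwa [h2] at this

/-- the first column determines the image of the base point -/
theorem smul_y0_congr {a b : GG k 2} {c : k} (h : ∀ i, a.1 i 0 = c * b.1 i 0) :
    a • (y0 : YY k 2) = b • (y0 : YY k 2) := by
  have e : ∀ (x : GG k 2) i, (x • (Pi.single 0 1 : Fin 3 → k)) i = x.1 i 0 := by
    intro x i
    show (x.1 *ᵥ (Pi.single 0 1 : Fin 3 → k)) i = _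
    simp
  unfold y0
  rw [smul_mk, smul_mk, mk_eq_mk_iff']
  refine ⟨c, ?_⟩
  funext i
  rw [Pi.smul_apply, e, e, h, smul_eq_mul]

/-- the first column of `E_ij(t) x` -/
theorem tr_col {i j : Fin 3} (hij : i ≠ j) (t : k) (x : GG k 2) (l : Fin 3) :
    (SpecialLinearGroup.transvection hij t * x : GG k 2).1 l 0 =
      if l = i then x.1 i 0 + t * x.1 j 0 else x.1 l 0 := by
  have e : (SpecialLinearGroup.transvection hij t * x : GG k 2).1 =
      ((1 : Matrix (Fin 3) (Fin 3) k) + Matrix.single i j t) * x.1 := rfl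
  rw [e, Matrix.add_mul, Matrix.one_mul, Matrix.add_apply]
  by_cases h : l = i
  · subst h
    simp
  · simp [h]

theorem tr_fix (x : GG k 2) {i j : Fin 3} (hij : i ≠ j) (t : k) (h : x.1 j 0 = 0) :
    (SpecialLinearGroup.transvection hij t : GG k 2) • x • (y0 : YY k 2) = x • (y0 : YY k 2) := by
  rw [← mul_smul]
  refine smul_y0_congr (c := 1) fun l => ?_
  rw [tr_col, one_mul, h, mul_zero, add_zero]
  by_cases hl : l = i
  · rw [if_pos hl, hl]
  · rw [if_neg hl]

theorem tr_y0 {i j : Fin 3} (hij : i ≠ j) (t : k) (h : j ≠ 0) :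
    (SpecialLinearGroup.transvection hij t : GG k 2) • (y0 : YY k 2) = y0 := by
  have := tr_fix (1 : GG k 2) hij t (by
    show (1 : Matrix (Fin 3) (Fin 3) k) j 0 = 0
    exact Matrix.one_apply_ne h)
  rwa [one_smul] at this

/-- [mo] -/
theorem moore_pts (g : GG k 2) (hg : g • (y0 : YY k 2) ≠ y0) :
    Moore {p : GG k 2 | p • (y0 : YY k 2) = y0 ∧ p • g • (y0 : YY k 2) = g • (y0 : YY k 2)} := by
  by_cases h2 : g.1 2 0 = 0
  · refine moore_conj (i := (0 : Fin 3)) (j := 2) (by decide) 1 fun t => ?_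
    rw [one_mul, inv_one, mul_one]
    exact ⟨tr_y0 _ t (by decide), tr_fix g _ t h2⟩
  · have h12 : (1 : Fin 3) ≠ 2 := by decide
    set a := g.1 1 0 / g.1 2 0 with ha
    refine moore_conj (i := (0 : Fin 3)) (j := 1) (by decide)
      (SpecialLinearGroup.transvection h12 a) fun t => ?_
    have hi : (SpecialLinearGroup.transvection h12 a : GG k 2)⁻¹ =
        SpecialLinearGroup.transvection h12 (-a) := by
      rw [inv_eq_iff_mul_eq_one]
      apply Subtype.ext
      show Matrix.transvection (1 : Fin 3) 2 a * Matrix.transvection (1 : Fin 3) 2 (-a) = 1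
      rw [Matrix.transvection_mul_transvection_same _ _ h12, add_neg_cancel,
        Matrix.transvection_zero]
    refine ⟨?_, ?_⟩
    · rw [mul_smul, mul_smul, hi, tr_y0 _ _ (by decide), tr_y0 _ _ (by decide),
        tr_y0 _ _ (by decide)]
    · have e : ((SpecialLinearGroup.transvection h12 a : GG k 2)⁻¹ * g).1 1 0 = 0 := by
        rw [hi, tr_col, if_pos rfl, ha]
        field_simp
        ring
      have e2 := tr_fix _ (show (0 : Fin 3) ≠ 1 by decide) t e
      rw [mul_smul] at e2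
      rw [mul_smul, mul_smul, e2, smul_inv_smul]

/-- transitivity of the stabiliser -/
theorem to_e2 (x : GG k 2) (hx : x • (y0 : YY k 2) ≠ y0) : ∃ p : GG k 2, p • (y0 : YY k 2) = y0 ∧
    (p * x).1 0 0 = 0 ∧ (p * x).1 1 0 = 0 := by
  have key : ∀ x : GG k 2, x.1 2 0 ≠ 0 → ∃ p : GG k 2, p • (y0 : YY k 2) = y0 ∧
      (p * x).1 0 0 = 0 ∧ (p * x).1 1 0 = 0 := by
    intro x h2
    have h02 : (0 : Fin 3) ≠ 2 := by decide
    have h12 : (1 : Fin 3) ≠ 2 := by decide
    refine ⟨SpecialLinearGroup.transvection h02 (-(x.1 0 0 / x.1 2 0)) *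
      SpecialLinearGroup.transvection h12 (-(x.1 1 0 / x.1 2 0)), ?_, ?_, ?_⟩
    · rw [mul_smul, tr_y0 _ _ (by decide), tr_y0 _ _ (by decide)]
    · rw [mul_assoc, tr_col, if_pos rfl, tr_col, tr_col, if_neg (by decide), if_neg (by decide)]
      field_simp
      ring
    · rw [mul_assoc, tr_col, if_neg (by decide), tr_col, if_pos rfl]
      field_simp
      ring
  by_cases h2 : x.1 2 0 = 0
  · have h1 : x.1 1 0 ≠ 0 := by
      intro h1
      apply hx
      rw [H574.smul_y0]
      intro i hi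
      fin_cases i
      · exact absurd rfl hi
      · exact h1
      · exact h2
    have h21 : (2 : Fin 3) ≠ 1 := by decide
    obtain ⟨p, hp, hp0, hp1⟩ := key (SpecialLinearGroup.transvection h21 1 * x) (by
      rw [tr_col, if_pos rfl, h2, zero_add, one_mul]
      exact h1)
    refine ⟨p * SpecialLinearGroup.transvection h21 1, ?_, ?_, ?_⟩
    · rw [mul_smul, tr_y0 _ _ (by decide), hp]
    · rw [mul_assoc]; exact hp0
    · rw [mul_assoc]; exact hp1
  · exact key x h2

/-- [mx] -/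
theorem stab_max (g : GG k 2) (hg : g • (y0 : YY k 2) ≠ y0) (H : Subgroup (GG k 2))
    (hH : ∀ p : GG k 2, p • (y0 : YY k 2) = y0 → p ∈ H) (hgH : g ∈ H) : H = ⊤ := by
  rw [Subgroup.eq_top_iff']
  intro x
  by_cases hx : x • (y0 : YY k 2) = y0
  · exact hH x hx
  · obtain ⟨p, hp, hp0, hp1⟩ := to_e2 x hx
    obtain ⟨p', hp', hp0', hp1'⟩ := to_e2 g hg
    have hne : (p' * g).1 2 0 ≠ 0 := by
      intro h
      have hd := (p' * g).2
      rw [Matrix.det_fin_three] at hd
      rw [hp0', hp1', h] at hd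
      simp at hd
    have e : (p * x) • (y0 : YY k 2) = (p' * g) • (y0 : YY k 2) := by
      refine smul_y0_congr (c := (p * x).1 2 0 / (p' * g).1 2 0) fun i => ?_
      fin_cases i
      · show (p * x).1 0 0 = _ * (p' * g).1 0 0
        rw [hp0, hp0', mul_zero]
      · show (p * x).1 1 0 = _ * (p' * g).1 1 0
        rw [hp1, hp1', mul_zero]
      · show (p * x).1 2 0 = _ * (p' * g).1 2 0
        field_simp
    have h1 : (p' * g)⁻¹ * (p * x) ∈ H := by
      apply hH
      rw [mul_smul, e, inv_smul_smul]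
    have h2 : p * x ∈ H := by
      have := H.mul_mem (H.mul_mem (hH p' hp') hgH) h1
      rwa [mul_inv_cancel_left] at this
    have := H.mul_mem (H.inv_mem (hH p hp)) h2
    rwa [inv_mul_cancel_left] at this

end con

/-- The vanishing statement (steps (1), (2) of #3941). -/
def VanStmt : Prop :=
  ∀ (k : Type) [NontriviallyNormedField k] [ProperSpace k] [IsUltrametricDist k] [CharZero k]
    {Γ K : Type} [Group Γ] [NormedAddCommGroup K] [InnerProductSpace ℂ K] [CompleteSpace K]
    (π : GG k 2 →* (K →L[ℂ] K)) (lam : Γ →* (K →L[ℂ] K)) (W W' : Set (K →L[ℂ] K)) (Ω : K)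
    (q : Γ →* GG k 2) (E : Clopens (YY k 2) → (K →L[ℂ] K)) (δ : GG k 2 → PG k 2)
    (Q : Set (YY k 2 × PG k 2) → (K →L[ℂ] K)),
    Emb q → Pic π lam W Ω → Lim π lam W q y0 E → Ext π lam W W' (y0 : YY k 2) E →
    ∀ hz : ZFam π lam W' Ω q cc y0 E δ Q, ∀ d : H574.P1 k → H574.P1 k,
    H574.Star (H574.dl hz.δmul) d →
    (∀ p : GG k 2, p • (y0 : YY k 2) = y0 → ∀ c, d (H574.pm (cc p (y0 : YY k 2)) c) =
      H574.pm (δ p) (d c)) →
    (∀ (a : k) (ha : a ≠ 0), ‖a‖ < 1 → ∀ h : GL (Fin 2) k, H574.Two δ d (h • H574.e0)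
      (H574.jj (h * H574.dg a ha * h⁻¹)) (H574.jj (h * H574.un 1 * h⁻¹))) →
    ∀ g : GG k 2, g • (y0 : YY k 2) ≠ y0 → ∀ m m' : H574.P1 k,
    g • H791.ln y0 m' = H791.ln y0 m → ∀ C C' : Set (YY k 2 × PG k 2), CO C → CO C' →
    (∀ z ∈ C, ∀ z' ∈ C', z.1 ≠ z'.1 ∧ ((z'.1, H791.ln z.1 (z.2 • d m)) ∉ inc ∨
      (z.1, H791.ln z'.1 (z'.2 • d m')) ∉ inc)) → π g * Q C' * π g⁻¹ * Q C = 0

/-- **[C-LINE] modulo the vanishing statement.** -/
theorem lineStmt_of (hV : VanStmt) : LineStmt := by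
  intro k _ _ _ _ _ Γ K _ _ _ _ π lam W W' Ω q E δ Q hq hp hE he hz
  have hg : Geo (cc : GG k 2 → YY k 2 → PG k 2) y0 := H200.Coc.geoStmt k 2 (by norm_num)
  obtain ⟨d, hd1, hd2, hd3⟩ := H574.del_main hz.δmul hz.δker hz.δcont hg.mul
  exact line_abs hg H791.lgeoC hp hE he hz (d := d) (fun p h m => hd2 p h m)
    (hV k π lam W W' Ω q E δ Q hq hp hE he hz d hd1 hd2 hd3) (ni_of hq) moore_pts
    (fun g hg H hH hgH => stab_max g hg H hH hgH) H791.y0_l0

end Vale.Agent.P092.H483
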