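import Vale.Agent.P092.RC.Defs

/-!
P092, TEAM C, block [C-LINE] (helper483). Push forward of a family of projections over the compact
open subsets of a locally compact space `Z` along a continuous map `s : Z → L` to a compact
totally disconnected space.
-/

set_option linter.all false

open scoped InnerProductSpace ENNReal
open Filter Topology ContinuousLinearMap TopologicalSpace

namespace Vale.Agent.P092.H483

open Vale.Agent.P092.SR (CO)
open Vale.Agent.P092.H820 (Cpv)

section co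

variable {Z Z' L : Type} [TopologicalSpace Z] [TopologicalSpace Z'] [TopologicalSpace L]

theorem co_empty : CO (∅ : Set Z) := ⟨isCompact_empty, isOpen_empty⟩

theorem co_inter [T2Space Z] {C D : Set Z} (hC : CO C) (hD : CO D) : CO (C ∩ D) :=
  ⟨hC.1.inter hD.1, hC.2.inter hD.2⟩

theorem co_clopen {C D : Set Z} (hC : CO C) (hD : IsClopen D) : CO (C ∩ D) :=
  ⟨hC.1.inter_right hD.isClosed, hC.2.inter hD.isOpen⟩

theorem co_pre {C : Set Z} (hC : CO C) {s : Z → L} (hs : Continuous s) (B : Clopens L) :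
    CO (C ∩ s ⁻¹' (B : Set L)) := co_clopen hC (B.isClopen.preimage hs)

theorem co_image (τ : Z ≃ₜ Z') {C : Set Z} (hC : CO C) : CO (τ '' C) :=
  ⟨hC.1.image τ.continuous, τ.isOpenMap C hC.2⟩

end co

/-- a nondegenerate family of projections over the compact open sets -/
structure QF {Z K : Type} [TopologicalSpace Z] [NormedAddCommGroup K] [InnerProductSpace ℂ K]
    [CompleteSpace K] (Q : Set Z → (K →L[ℂ] K)) : Prop where
  adj : ∀ C, CO C → adjoint (Q C) = Q C
  mul : ∀ C D, CO C → CO D → Q C * Q D = Q (C ∩ D)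
  add : ∀ C D, CO C → CO D → Disjoint C D → Q (C ∪ D) = Q C + Q D
  nondeg : ∀ ζ, (∀ C, CO C → Q C ζ = 0) → ζ = 0

section push

variable {Z Z' L L' K : Type} [TopologicalSpace Z] [TopologicalSpace Z'] [TopologicalSpace L]
  [TopologicalSpace L'] [NormedAddCommGroup K] [InnerProductSpace ℂ K] [CompleteSpace K]
  {Q : Set Z → (K →L[ℂ] K)} {Q' : Set Z' → (K →L[ℂ] K)}

namespace QF

theorem empty (h : QF Q) : Q ∅ = 0 := by
  have := h.add ∅ ∅ co_empty co_empty (Set.disjoint_empty _)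
  rw [Set.union_empty] at this
  exact left_eq_add.1 this

theorem split (h : QF Q) {C : Set Z} (hC : CO C) {s : Z → L} (hs : Continuous s) (B : Clopens L) :
    Q C = Q (C ∩ s ⁻¹' (B : Set L)) + Q (C ∩ s ⁻¹' ((Bᶜ : Clopens L) : Set L)) := by
  rw [← h.add _ _ (co_pre hC hs B) (co_pre hC hs Bᶜ)]
  · congr 1
    rw [← Set.inter_union_distrib_left, ← Set.preimage_union, Clopens.coe_compl,
      Set.union_compl_self, Set.preimage_univ, Set.inter_univ]
  · rw [Set.disjoint_left]
    rintro z ⟨_, h1⟩ ⟨_, h2⟩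
    exact h2 h1

/-- the equality principle -/
theorem ext (h : QF Q) {A A' : K →L[ℂ] K} (hA : ∀ C, CO C → A * Q C = A' * Q C) : A = A' := by
  rw [← sub_eq_zero]
  have h1 : adjoint (A - A') = 0 := by
    ext ζ
    refine h.nondeg _ fun C hC => ?_
    have e : (A - A') * Q C = 0 := by rw [sub_mul, hA C hC, sub_self]
    have e2 := congrArg adjoint e
    rw [mul_def, adjoint_comp, h.adj C hC, map_zero] at e2
    exact DFunLike.congr_fun e2 ζ
  rw [← adjoint_adjoint (A - A'), h1, map_zero]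

theorem ext' (h : QF Q) {A A' : K →L[ℂ] K} (hA : ∀ C, CO C → Q C * A = Q C * A') : A = A' := by
  ext ζ
  rw [← sub_eq_zero]
  refine h.nondeg _ fun C hC => ?_
  rw [map_sub, sub_eq_zero]
  exact DFunLike.congr_fun (hA C hC) ζ

theorem conj (h : QF Q) {T T' : K →L[ℂ] K} (hT : adjoint T = T') (h1 : T' * T = 1)
    (h2 : T * T' = 1) : QF (fun C => T * Q C * T') where
  adj C hC := by
    have hT' : adjoint T' = T := by rw [← hT, adjoint_adjoint]
    rw [← star_eq_adjoint, star_mul, star_mul, star_eq_adjoint, star_eq_adjoint, star_eq_adjoint,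
      h.adj C hC, hT, hT', mul_assoc]
  mul C D hC hD := by
    rw [← h.mul C D hC hD]
    calc T * Q C * T' * (T * Q D * T') = T * Q C * (T' * T) * Q D * T' := by
          simp only [mul_assoc]
      _ = _ := by rw [h1, mul_one]; simp only [mul_assoc]
  add C D hC hD hd := by
    rw [h.add C D hC hD hd, mul_add, add_mul]
  nondeg ζ hζ := by
    have e : T' ζ = 0 := by
      refine h.nondeg _ fun C hC => ?_
      have e1 := congrArg T' (hζ C hC)
      rw [map_zero] at e1
      have e2 : T' ((T * Q C * T') ζ) = (T' * T) (Q C (T' ζ)) := rfl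
      rw [e2, h1] at e1
      exact e1
    have e3 : (T * T') ζ = 0 := by
      show T (T' ζ) = 0
      rw [e, map_zero]
    rw [h2] at e3
    exact e3

end QF

/-- the range of the push forward of `B` -/
def pfS (Q : Set Z → (K →L[ℂ] K)) (s : Z → L) (B : Clopens L) : Submodule ℂ K where
  carrier := {ξ | ∀ C, CO C → Q C ξ = Q (C ∩ s ⁻¹' (B : Set L)) ξ}
  add_mem' := by
    intro a b ha hb C hC
    rw [map_add, map_add, ha C hC, hb C hC]
  zero_mem' := by
    intro C hC
    rw [map_zero, map_zero]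
  smul_mem' := by
    intro c a ha C hC
    rw [map_smul, map_smul, ha C hC]

theorem pfS_closed (Q : Set Z → (K →L[ℂ] K)) (s : Z → L) (B : Clopens L) :
    IsClosed (pfS Q s B : Set K) := by
  have : (pfS Q s B : Set K) = ⋂ C : {C : Set Z // CO C},
      {ξ | Q C.1 ξ = Q (C.1 ∩ s ⁻¹' (B : Set L)) ξ} := by
    ext ξ
    simp only [Set.mem_iInter, Set.mem_setOf_eq, Subtype.forall]
    rfl
  rw [this]
  exact isClosed_iInter fun C => isClosed_eq (Q C.1).continuous (Q _).continuous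

instance (Q : Set Z → (K →L[ℂ] K)) (s : Z → L) (B : Clopens L) : CompleteSpace (pfS Q s B) :=
  (pfS_closed Q s B).completeSpace_coe

/-- the push forward of `Q` along `s` -/
noncomputable def pf (Q : Set Z → (K →L[ℂ] K)) (s : Z → L) (B : Clopens L) : K →L[ℂ] K :=
  (pfS Q s B).starProjection

theorem pf_sa (Q : Set Z → (K →L[ℂ] K)) (s : Z → L) (B : Clopens L) :
    star (pf Q s B) = pf Q s B :=
  (isSelfAdjoint_starProjection (pfS Q s B))

variable [T2Space Z] {s : Z → L}

theorem pf_mul (h : QF Q) (hs : Continuous s) (B : Clopens L) {C : Set Z} (hC : CO C) :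
    pf Q s B * Q C = Q (C ∩ s ⁻¹' (B : Set L)) := by
  ext ξ
  show pf Q s B (Q C ξ) = _
  have e1 : Q C ξ = Q (C ∩ s ⁻¹' (B : Set L)) ξ +
      Q (C ∩ s ⁻¹' ((Bᶜ : Clopens L) : Set L)) ξ := DFunLike.congr_fun (h.split hC hs B) ξ
  have h1 : Q (C ∩ s ⁻¹' (B : Set L)) ξ ∈ pfS Q s B := by
    intro D hD
    have a1 : Q D (Q (C ∩ s ⁻¹' (B : Set L)) ξ) = (Q D * Q (C ∩ s ⁻¹' (B : Set L))) ξ := rfl
    have a2 : Q (D ∩ s ⁻¹' (B : Set L)) (Q (C ∩ s ⁻¹' (B : Set L)) ξ) =
      (Q (D ∩ s ⁻¹' (B : Set L)) * Q (C ∩ s ⁻¹' (B : Set L))) ξ := rfl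
    rw [a1, a2, h.mul _ _ hD (co_pre hC hs B), h.mul _ _ (co_pre hD hs B) (co_pre hC hs B)]
    congr 2
    ext z
    simp only [Set.mem_inter_iff, Set.mem_preimage]
    tauto
  have h2 : pf Q s B (Q (C ∩ s ⁻¹' ((Bᶜ : Clopens L) : Set L)) ξ) = 0 := by
    unfold pf
    rw [Submodule.starProjection_apply_eq_zero_iff, Submodule.mem_orthogonal]
    intro u hu
    have hc := co_pre hC hs Bᶜ
    have a1 := adjoint_inner_left (Q (C ∩ s ⁻¹' ((Bᶜ : Clopens L) : Set L))) ξ u
    rw [h.adj _ hc] at a1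
    rw [← a1, hu _ hc]
    have a2 : C ∩ s ⁻¹' ((Bᶜ : Clopens L) : Set L) ∩ s ⁻¹' (B : Set L) = ∅ := by
      ext z
      simp only [Set.mem_inter_iff, Set.mem_preimage, Clopens.coe_compl, Set.mem_compl_iff,
        Set.mem_empty_iff_false, iff_false]
      tauto
    rw [a2, h.empty]
    simp
  have h3 : pf Q s B (Q (C ∩ s ⁻¹' (B : Set L)) ξ) = Q (C ∩ s ⁻¹' (B : Set L)) ξ := by
    unfold pf
    exact Submodule.starProjection_eq_self_iff.2 h1
  rw [e1, map_add, h2, h3, add_zero]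

theorem mul_pf (h : QF Q) (hs : Continuous s) (B : Clopens L) {C : Set Z} (hC : CO C) :
    Q C * pf Q s B = Q (C ∩ s ⁻¹' (B : Set L)) := by
  have := congrArg star (pf_mul h hs B hC)
  rw [star_mul, pf_sa, star_eq_adjoint, star_eq_adjoint, h.adj C hC,
    h.adj _ (co_pre hC hs B)] at this
  exact this

theorem pf_cpv (h : QF Q) (hs : Continuous s) : Cpv (pf Q s) where
  sa B := pf_sa Q s B
  inf B B' := by
    refine h.ext fun C hC => ?_
    rw [pf_mul h hs _ hC, mul_assoc, pf_mul h hs _ hC, pf_mul h hs _ (co_pre hC hs B')]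
    congr 1
    ext z
    simp only [Set.mem_inter_iff, Set.mem_preimage, Clopens.coe_inf]
    tauto
  compl B := by
    refine h.ext fun C hC => ?_
    rw [pf_mul h hs _ hC, sub_mul, one_mul, pf_mul h hs _ hC, h.split hC hs B, add_sub_cancel_left]

/-- commutation -/
theorem pf_comm (h : QF Q) (hs : Continuous s) {T : K →L[ℂ] K}
    (hT : ∀ C, CO C → T * Q C = Q C * T) (B : Clopens L) : T * pf Q s B = pf Q s B * T := by
  refine h.ext fun C hC => ?_
  rw [mul_assoc, pf_mul h hs _ hC, mul_assoc, hT C hC, ← mul_assoc, pf_mul h hs _ hC,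
    hT _ (co_pre hC hs B)]

/-- uniqueness -/
theorem pf_unique (h : QF Q) (hs : Continuous s) {B : Clopens L} {F : K →L[ℂ] K}
    (hF : ∀ C, CO C → F * Q C = Q (C ∩ s ⁻¹' (B : Set L))) : F = pf Q s B :=
  h.ext fun C hC => by rw [hF C hC, pf_mul h hs _ hC]

/-- transport -/
theorem pf_conj [T2Space Z'] (h : QF Q) (h' : QF Q') (hs : Continuous s) {s' : Z' → L'}
    (hs' : Continuous s') (τ : Z ≃ₜ Z') {B : Clopens L} {B' : Clopens L'}
    (hB : ∀ z, s' (τ z) ∈ B' ↔ s z ∈ B) {T T' : K →L[ℂ] K}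
    (h1 : T' * T = 1) (hQ : ∀ C, CO C → T * Q C * T' = Q' (τ '' C)) :
    T * pf Q s B * T' = pf Q' s' B' := by
  refine pf_unique h' hs' fun D hD => ?_
  have hC : CO (τ.symm '' D) := co_image τ.symm hD
  have e1 : Q' D = T * Q (τ.symm '' D) * T' := by
    rw [hQ _ hC, ← Set.image_comp]
    congr 1
    ext z
    simp
  have e2 : τ '' (τ.symm '' D ∩ s ⁻¹' (B : Set L)) = D ∩ s' ⁻¹' (B' : Set L') := by
    ext z
    simp only [Set.mem_image, Set.mem_inter_iff, Set.mem_preimage, SetLike.mem_coe]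
    constructor
    · rintro ⟨x, ⟨⟨y, hy, rfl⟩, hx⟩, rfl⟩
      refine ⟨?_, (hB _).2 hx⟩
      rwa [Homeomorph.apply_symm_apply]
    · rintro ⟨hz, hz'⟩
      refine ⟨τ.symm z, ⟨⟨z, hz, rfl⟩, ?_⟩, τ.apply_symm_apply z⟩
      rw [← hB, τ.apply_symm_apply]
      exact hz'
  rw [e1]
  calc T * pf Q s B * T' * (T * Q (τ.symm '' D) * T')
      = T * pf Q s B * (T' * T) * Q (τ.symm '' D) * T' := by simp only [mul_assoc]
    _ = T * (pf Q s B * Q (τ.symm '' D)) * T' := by rw [h1, mul_one]; simp only [mul_assoc]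
    _ = Q' (D ∩ s' ⁻¹' (B' : Set L')) := by
        rw [pf_mul h hs _ hC, hQ _ (co_pre hC hs B), e2]

end push

end Vale.Agent.P092.H483
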